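import Vale.Agent.P004F.En.Nos
import Vale.Agent.P004F.Qx.Unv
import Vale.Agent.P014T.Lc.Qp
import Vale.Agent.P014T.Ht.Sh

/-! # P014T: inertia and the torsion of order a power of two at a bad odd prime -/

set_option autoImplicit false
set_option linter.all false

open scoped Classical

noncomputable section

namespace Vale.Agent.P014T.Gt

namespace Am

open NumberField WeierstrassCurve WeierstrassCurve.Affine
open Vale.Agent.P022 (Qb GQ)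
open Vale.Agent.P022.H443 (inP)
open Vale.Agent.P022E.GW (Ov)
open Vale.Agent.P004H.H666 (xp zp eqn xp_some zp_some)
open Vale.Agent.P004M.TE hiding Qb GQ
open Vale.Agent.P004F Vale.Agent.P004F.En Vale.Agent.P014T.Sm Vale.Agent.P014T.Lc
open Vale.Agent.P014 (GlobalMinimal)

variable {Γ : Type} [LinearOrderedCommGroupWithZero Γ] {v : Valuation Qb Γ} {U : Subfield Qb}
  {p : ℕ}

/-- a valuation over `p` which is unramified on `U` -/
structure Vd (v : Valuation Qb Γ) (U : Subfield Qb) (p : ℕ) : Prop where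
  hp : p.Prime
  h2 : p ≠ 2
  iz : ∀ n : ℤ, v n ≤ 1
  lt : ∀ n : ℤ, v n < 1 ↔ (p : ℤ) ∣ n
  un : ∀ a ∈ U, v a < 1 → v a ≤ v p

theorem ex_vd {P : Ideal (𝓞 Qb)} (ho : Ov p P) (h2 : p ≠ 2) : ∃ O : ValuationSubring Qb,
    Vd O.valuation (IntermediateField.fixedField (inP P)).toSubfield p := by
  obtain ⟨O, hO⟩ := Qx.Fg.ex_O ho.2.1 (Qx.Fg.ne_bot ho.1.ne_zero ho.2.2)
  have p0 : (p : Qb) ≠ 0 := by exact_mod_cast ho.1.ne_zero
  refine ⟨O, ho.1, h2, fun n => (O.valuation_le_one_iff _).2 (intCast_mem O n), fun n => ?_,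
    fun a ha k => ?_⟩
  · rw [← hO.zp, ← Qx.Fg.int_mem ho.2.1 ho.1 ho.2.2]
    refine ⟨?_, fun k => ⟨1, n, ho.2.1.one_notMem, k, by simp⟩⟩
    rintro ⟨s, t, h1, h2, h3⟩
    rw [show t = s * n from RingOfIntegers.ext (by simpa using h3.symm)] at h2
    exact (ho.2.1.mem_or_mem h2).resolve_left h1
  · have := (hO.ip _).1 (Qx.unv p P ho.1 ho.2.1 ho.2.2 a (fun g hg => ha ⟨g, hg⟩) ((hO.zp _).2 k))
    rwa [map_div₀, div_le_one₀ (zero_lt_iff.2 (O.valuation.ne_zero_iff.2 p0))] at this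

theorem sq {x : Qb} {n : ℕ} (k : v (x ^ n) < 1) : v x < 1 := by
  rw [map_pow] at k
  exact not_le.1 fun a => absurd k (not_lt.2 (one_le_pow₀ a))

theorem ml {x y : Qb} {i j : ℕ} {π : Γ} (a : v x ≤ π ^ i) (b : v y ≤ π ^ j) :
    v (x * y) ≤ π ^ (i + j) := by
  rw [map_mul, pow_add]; exact mul_le_mul' a b

theorem lt_mul {x y : Qb} (a : v x ≤ 1) (b : v y < 1) : v (x * y) < 1 := by
  rw [map_mul]; exact (mul_le_of_le_one_left' a).trans_lt b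

theorem le_mul {x y : Qb} {π : Γ} (a : v x ≤ 1) (b : v y ≤ π) : v (x * y) ≤ π := by
  rw [map_mul]; exact (mul_le_of_le_one_left' a).trans b

namespace Vd

variable (H : Vd v U p)
include H

theorem p0 : 0 < v p := zero_lt_iff.2 (v.ne_zero_iff.2 (by exact_mod_cast H.hp.ne_zero))

theorem p1 : v p < 1 := by simpa using (H.lt p).2 dvd_rfl

theorem nz (n : ℕ) : v n ≤ 1 := by simpa using H.iz n

theorem dv (n : ℕ) : ∀ D : ℤ, v D ≤ v p ^ n → (p : ℤ) ^ n ∣ D := by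
  induction n with
  | zero => simp
  | succ n ih =>
    intro D h
    obtain ⟨D, rfl⟩ := ih D (h.trans (pow_le_pow_right_of_le_one' H.p1.le n.le_succ))
    rw [Int.cast_mul, map_mul, Int.cast_pow, map_pow, Int.cast_natCast, pow_succ,
      mul_le_mul_iff_right₀ (pow_pos H.p0 _)] at h
    exact pow_succ (p : ℤ) n ▸ mul_dvd_mul_left _ ((H.lt D).1 (h.trans_lt H.p1))

theorem v2 : v 2 = 1 := le_antisymm (H.nz 2) (not_lt.1 fun k => H.h2
  ((Nat.prime_dvd_prime_iff_eq H.hp Nat.prime_two).1 (Int.natCast_dvd_natCast.1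
    ((H.lt (2 : ℕ)).1 (by simpa using k)))))

theorem two (k : ℕ) (x : Qb) : v (2 ^ k * x) = v x := by rw [map_mul, map_pow, H.v2, one_pow, one_mul]

theorem mono {i j : ℕ} (h : i ≤ j) : v p ^ j ≤ v p ^ i := pow_le_pow_right_of_le_one' H.p1.le h

end Vd

theorem int {a b c : ℤ} (iz : ∀ n : ℤ, v n ≤ 1) {x : Qb} (e : x ^ 3 + a * x ^ 2 + b * x + c = 0) :
    v x ≤ 1 := not_lt.1 fun k => by
  have h2 : v x ≤ v x ^ 2 := le_self_pow₀ k.le two_ne_zero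
  refine absurd (v.map_add_le (v.map_add_le (le_mul (iz a) (map_pow v x 2).le)
    (le_mul (iz b) h2)) ((iz c).trans (k.le.trans h2))) (not_le.2 ?_)
  rw [show a * x ^ 2 + b * x + c = -x ^ 3 by linear_combination e, v.map_neg, map_pow]
  exact pow_lt_pow_right₀ k (by norm_num)

variable {W : WeierstrassCurve ℤ} {A B : ℤ} {u r s t : ℚ}

/-- the normalised root -/
def et (W : WeierstrassCurve ℤ) (u : ℚ) (e : Qb) : Qb := 4 * e / (u : Qb) ^ 2 - (W.b₂ : Qb) / 3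

theorem ab (h : Md (Wq W) A B u r s t) : (u : Qb) ≠ 0 ∧
    algebraMap ℚ Qb A = -((u : Qb) ^ 4 * (W.b₂ ^ 2 - 24 * W.b₄)) / 48 ∧
    algebraMap ℚ Qb B = -((u : Qb) ^ 6 * (-W.b₂ ^ 3 + 36 * W.b₂ * W.b₄ - 216 * W.b₆)) / 864 := by
  obtain ⟨-, -, -, a, b⟩ := Md.eq h
  rw [a, b]
  refine ⟨by exact_mod_cast h.ne, ?_, ?_⟩ <;> simp [c₄, c₆]

theorem et_eq (h : Md (Wq W) A B u r s t) {e : Qb}
    (k : e ^ 3 + algebraMap ℚ Qb A * e + algebraMap ℚ Qb B = 0) :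
    et W u e ^ 3 + W.b₂ * et W u e ^ 2 + (8 * W.b₄ : ℤ) * et W u e + (16 * W.b₆ : ℤ) = 0 := by
  obtain ⟨u0, a, b⟩ := ab h
  rw [a, b] at k
  rw [et]
  push_cast
  field_simp
  linear_combination 1728 * k

theorem nmin (hΔ : W.Δ ≠ 0) (hm : GlobalMinimal (Wq W)) (hp : p.Prime) (h2 : p ≠ 2) {n : ℤ}
    (e2 : (p : ℤ) ^ 2 ∣ 3 * n + W.b₂) (e4 : (p : ℤ) ^ 4 ∣ 3 * n ^ 2 + 2 * W.b₂ * n + 8 * W.b₄)
    (e6 : (p : ℤ) ^ 6 ∣ n ^ 3 + W.b₂ * n ^ 2 + 8 * W.b₄ * n + 16 * W.b₆) : False := by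
  haveI := Fact.mk hp
  obtain ⟨m2, e2⟩ := e2
  obtain ⟨m4, e4⟩ := e4
  obtain ⟨m6, e6⟩ := e6
  obtain ⟨i, hi⟩ : ∃ i : ℤ_[p], 2 * i = 1 := IsUnit.exists_right_inv (PadicInt.isUnit_iff.2 (by
    simpa using PadicInt.norm_natCast_eq_one_iff.2 ((Nat.coprime_primes hp Nat.prime_two).2 h2)))
  have hj : (i : ℚ_[p]) = 1 / 2 := eq_div_of_mul_eq two_ne_zero (by
    rw [mul_comm]; exact congrArg Subtype.val hi)
  have p0 : (p : ℚ_[p]) ≠ 0 := Nat.cast_ne_zero.2 hp.ne_zero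
  have g2 := congrArg (Int.cast : ℤ → ℚ_[p]) e2
  have g4 := congrArg (Int.cast : ℤ → ℚ_[p]) e4
  have g6 := congrArg (Int.cast : ℤ → ℚ_[p]) e6
  simp only [b₂, b₄, b₆] at g2 g4 g6
  push_cast at g2 g4 g6
  obtain ⟨b, hb⟩ := Np.inv_int (R := ℤ_[p]) (K := ℚ_[p]) ⟨hp, inferInstance, PadicInt.irreducible_p,
    (Nat.card_congr PadicInt.residueField.toEquiv).trans (Nat.card_zmod p)⟩ W hΔ hm
    ⟨Units.mk0 p p0, n / 4, -W.a₁ / 2, -(W.a₃ + n / 4 * W.a₁) / 2⟩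
    ⟨0, i ^ 2 * m2, 0, i ^ 4 * m4, i ^ 6 * m6⟩ (by
      ext <;> simp only [variableChange_a₁, variableChange_a₂, variableChange_a₃, variableChange_a₄,
        variableChange_a₆, Units.val_inv_eq_inv_val, Units.val_mk0, map_a₁, map_a₂,
        map_a₃, map_a₄, map_a₆, eq_intCast, map_intCast, map_mul, map_pow, map_zero,
        PadicInt.algebraMap_apply, hj] <;> field_simp
      · ring
      · linear_combination 4 * g2
      · ring
      · linear_combination 16 * g4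
      · linear_combination 64 * g6)
  have := b.2
  rw [show (b.1 : ℚ_[p]) = (p : ℚ_[p])⁻¹ from hb, norm_inv] at this
  exact absurd Padic.norm_p_lt_one (not_lt.2 ((inv_le_one₀ (norm_pos_iff.2 p0)).1 this))

/-- an unramified triple root modulo `p ^ 2` is an integer modulo `p ^ 2` -/
theorem ex_n (H : Vd v U p) {η a b : Qb} {b₂ b₄ b₆ : ℤ} (m : η ∈ U) (i : v η ≤ 1)
    (e : η ^ 3 + b₂ * η ^ 2 + b₄ * η + b₆ = 0) (ea : a = 3 * η + b₂)
    (eb : b = 3 * η ^ 2 + 2 * b₂ * η + b₄) (ha : v a ≤ v p ^ 2) (hb : v b ≤ v p ^ 4) :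
    ∃ n : ℤ, v (η - n) ≤ v p ^ 2 := by
  by_cases h3 : p = 3
  swap
  · obtain ⟨k, l, w⟩ := Nat.isCoprime_iff_coprime.2
      (((Nat.coprime_primes Nat.prime_three H.hp).2 (Ne.symm h3)).pow_right 2)
    have w := congrArg (Int.cast : ℤ → Qb) w
    push_cast at w
    refine ⟨-k * b₂, ?_⟩
    rw [show η - (-k * b₂ : ℤ) = k * a + l * η * p ^ 2 by push_cast; linear_combination -η * w - k * ea]
    exact v.map_add_le (le_mul (H.iz k) ha) (le_mul (le_mul (H.iz l) i) (map_pow v _ 2).le)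
  subst h3
  have t1 : v 3 < 1 := H.p1
  have st : ∀ θ ∈ U, v θ ≤ 1 → ∀ N : ℤ, v (θ ^ 3 - N) < 1 → v (θ - N) ≤ v 3 := fun θ m i N k => by
    refine H.un _ (U.sub_mem m (intCast_mem U N)) (sq (n := 3) ?_)
    rw [show (θ - N) ^ 3 = θ ^ 3 - N + ((N - N ^ 3 : ℤ) + θ * N * (N - θ) * 3) by push_cast; ring]
    refine v.map_add_lt k (v.map_add_lt ((H.lt _).2 ?_) (lt_mul (le_mul (le_mul i (H.iz N))
      (v.map_sub_le (H.iz N) i)) t1))
    exact (ZMod.intCast_zmod_eq_zero_iff_dvd _ 3).1 (by push_cast; rw [ZMod.pow_card, sub_self])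
  have q1 : ∀ k, v ((3 : ℕ) : Qb) ^ (k + 1) < 1 := fun k => (H.mono (Nat.le_add_left 1 k)).trans_lt
    ((pow_one _).trans_lt H.p1)
  have s1 := st η m i (-b₆) (by
    rw [show η ^ 3 - (-b₆ : ℤ) = η ^ 2 * a - η * b by push_cast; rw [ea, eb]; linear_combination e]
    exact v.map_sub_lt (lt_mul (by rw [map_pow]; exact pow_le_one₀ zero_le' i) (ha.trans_lt (q1 1)))
      (lt_mul i (hb.trans_lt (q1 3))))
  generalize -b₆ = N at s1
  obtain ⟨θ, rfl⟩ : ∃ θ, η = N + 3 * θ := ⟨(η - N) / 3, by ring⟩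
  rw [add_sub_cancel_left, map_mul] at s1
  replace s1 := (mul_le_iff_le_one_right H.p0).1 s1
  have m' : θ ∈ U := by
    convert U.div_mem (U.sub_mem m (intCast_mem U N)) (natCast_mem U 3) using 1
    push_cast; ring
  obtain ⟨a, rfl⟩ : ∃ a', a = 3 ^ 2 * a' := ⟨a / 9, by ring⟩
  obtain ⟨b, rfl⟩ : ∃ b', b = 3 ^ 4 * b' := ⟨b / 81, by ring⟩
  rw [map_mul, map_pow] at ha hb
  replace ha := (mul_le_iff_le_one_right (pow_pos H.p0 2)).1 ha
  replace hb := (mul_le_iff_le_one_right (pow_pos H.p0 4)).1 hb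
  have z : ((N ^ 3 + b₂ * N ^ 2 + b₄ * N + b₆ : ℤ) : Qb) =
      3 ^ 3 * (θ * (a * θ - 3 * b) * 3 - θ ^ 3) := by
    push_cast; linear_combination e - 9 * θ ^ 2 * ea + 3 * θ * eb
  have z1 := lt_mul (le_mul s1 (v.map_sub_le (le_mul ha s1) (le_mul t1.le hb))) t1
  obtain ⟨M, hM⟩ := H.dv 3 _ (by
    rw [z, mul_comm]
    exact le_mul (v.map_sub_le z1.le (by rw [map_pow]; exact pow_le_one₀ zero_le' s1))
      (map_pow v _ 3).le)
  rw [hM] at z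
  push_cast at z
  have s2 := st θ m' s1 (-M) (by
    rwa [show θ ^ 3 - (-M : ℤ) = θ * (a * θ - 3 * b) * 3 by push_cast; linear_combination z / 27])
  refine ⟨N + 3 * -M, ?_⟩
  rw [show N + 3 * θ - (N + 3 * -M : ℤ) = 3 * (θ - (-M : ℤ)) by push_cast; ring, map_mul, pow_two]
  exact mul_le_mul_right s2 _

theorem cd (h : Md (Wq W) A B u r s t) : (u : Qb) ^ 4 * W.c₄ = -48 * algebraMap ℚ Qb A ∧
    (u : Qb) ^ 12 * W.Δ = -16 * (4 * algebraMap ℚ Qb A ^ 3 + 27 * algebraMap ℚ Qb B ^ 2) := by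
  have d := congrArg (algebraMap ℚ Qb) (Md.disc h)
  have a := congrArg (algebraMap ℚ Qb) (Md.eq h).2.2.2.1
  simp only [map_mul, map_add, map_pow, map_neg, map_ofNat, map_div₀, map_Δ, map_c₄, eq_intCast,
    map_intCast, eq_ratCast, Rat.cast_intCast] at d a ⊢
  exact ⟨by linear_combination 48 * a, by linear_combination -d⟩

theorem ad0 (H : Vd v U p) (hΔ : W.Δ ≠ 0) (hm : GlobalMinimal (Wq W)) (h : Md (Wq W) A B u r s t)
    (b : (p : ℤ) ∣ W.Δ) (c : (p : ℤ) ∣ W.c₄) {e γ δ : Qb} (mγ : γ ∈ U) (mδ : δ ∈ U)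
    (k : e ^ 3 + algebraMap ℚ Qb A * e + algebraMap ℚ Qb B = 0) (ea : 3 * e = γ ^ 2 - 2 * δ ^ 2)
    (eb : 3 * e ^ 2 + algebraMap ℚ Qb A = δ ^ 4) : False := by
  obtain ⟨u0, a, -⟩ := ab h
  obtain ⟨c4, d⟩ := cd h
  have q := et_eq h k
  have i := int H.iz q
  have mu : (u : Qb) ∈ U := SubfieldClass.ratCast_mem U u
  obtain ⟨G, rfl⟩ : ∃ G, γ = u * G := ⟨γ / u, by field_simp⟩
  obtain ⟨D, rfl⟩ : ∃ D, δ = u * D := ⟨δ / u, by field_simp⟩
  replace mγ : G ∈ U := by simpa [u0] using U.div_mem mγ mu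
  replace mδ : D ∈ U := by simpa [u0] using U.div_mem mδ mu
  obtain rfl : e = u ^ 2 * (G ^ 2 - 2 * D ^ 2) / 3 := by linear_combination ea / 3
  have e1 : 2 ^ 2 * (G ^ 2 - 2 * D ^ 2) = 3 * et W u (u ^ 2 * (G ^ 2 - 2 * D ^ 2) / 3) + W.b₂ := by
    rw [et]; field_simp; ring
  generalize et W u _ = η at q i e1
  have c5 : (W.c₄ : Qb) = 2 ^ 4 * ((G ^ 2 - 2 * D ^ 2) ^ 2 - 3 * D ^ 4) :=
    mul_left_cancel₀ (pow_ne_zero 4 u0) (by linear_combination c4 - 48 * eb)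
  have e2 : 2 ^ 4 * D ^ 4 = 3 * η ^ 2 + 2 * W.b₂ * η + (8 * W.b₄ : ℤ) := by
    simp only [c₄] at c5
    push_cast at c5 ⊢
    linear_combination c5 / 3 + (2 ^ 2 * (G ^ 2 - 2 * D ^ 2) + 3 * η + W.b₂) / 3 * e1
  have d5 : (W.Δ : Qb) = 2 ^ 4 * (D ^ 8 * ((G ^ 2 - 2 * D ^ 2) ^ 2 - 4 * D ^ 4)) :=
    mul_left_cancel₀ (pow_ne_zero 12 u0) (by
      rw [d, eq_neg_of_add_eq_zero_right k, eq_sub_of_add_eq' eb]; ring)
  have iD : v D ≤ 1 := not_lt.1 fun z => absurd (one_lt_pow₀ z (by norm_num : 4 ≠ 0)) (not_lt.2 (by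
    rw [← map_pow, ← H.two 4, e2]
    exact v.map_add_le (v.map_add_le (le_mul (H.nz 3) (by
      rw [map_pow]; exact pow_le_one₀ zero_le' i)) (le_mul (le_mul (H.nz 2) (H.iz _)) i)) (H.iz _)))
  have c6 := (H.lt _).2 c
  have d6 := (H.lt _).2 b
  rw [c5, H.two] at c6
  rw [d5, H.two, map_mul, map_pow] at d6
  have lD : v D < 1 := iD.lt_of_ne fun z => by
    rw [z, one_pow, one_mul] at d6
    have := v.map_sub_lt c6 d6
    rw [show _ - 3 * D ^ 4 - (_ - 4 * D ^ 4) = D ^ 4 by ring] at this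
    exact (sq this).ne z
  have l2 : ∀ k, v (D ^ (k + 1)) < 1 := fun k => by
    rw [map_pow]; exact pow_lt_one₀ zero_le' lD k.succ_ne_zero
  have lG : v G < 1 := sq (n := 2) (by
    have := v.map_add_lt (sq (n := 2) (x := G ^ 2 - 2 * D ^ 2) (by
      simpa using v.map_add_lt c6 (lt_mul (H.nz 3) (l2 3)))) (lt_mul (H.nz 2) (l2 1))
    simpa using this)
  have pw : ∀ x ∈ U, v x < 1 → ∀ k, v (x ^ k) ≤ v p ^ k := fun x m z k => by
    rw [map_pow]; exact pow_le_pow_left' (H.un x m z) k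
  have ha : v (2 ^ 2 * (G ^ 2 - 2 * D ^ 2)) ≤ v p ^ 2 := by
    rw [H.two]; exact v.map_sub_le (pw G mγ lG 2) (le_mul (H.nz 2) (pw D mδ lD 2))
  have hb : v (2 ^ 4 * D ^ 4) ≤ v p ^ 4 := by rw [H.two]; exact pw D mδ lD 4
  obtain ⟨n, hn⟩ := ex_n H (by
    rw [show η = (2 ^ 2 * (G ^ 2 - 2 * D ^ 2) - W.b₂) / 3 by linear_combination -e1 / 3]
    exact U.div_mem (U.sub_mem (U.mul_mem (U.pow_mem (natCast_mem U 2) 2) (U.sub_mem
      (U.pow_mem mγ 2) (U.mul_mem (natCast_mem U 2) (U.pow_mem mδ 2)))) (intCast_mem U _))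
      (natCast_mem U 3)) i q e1 e2 ha hb
  generalize 2 ^ 2 * (G ^ 2 - 2 * D ^ 2) = α at e1 ha
  generalize 2 ^ 4 * D ^ 4 = β at e2 hb
  obtain ⟨θ, rfl⟩ : ∃ θ, η = n + θ := ⟨η - n, by ring⟩
  rw [add_sub_cancel_left] at hn
  push_cast at q e2
  refine nmin hΔ hm H.hp H.h2 (n := n) (H.dv 2 _ ?_) (H.dv 4 _ ?_) (H.dv 6 _ ?_)
  · convert v.map_sub_le ha (le_mul (H.nz 3) hn) using 2
    push_cast; linear_combination -e1
  · convert v.map_add_le (v.map_sub_le hb (le_mul (H.nz 2) (ml ha hn)))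
      (le_mul (H.nz 3) (ml hn hn)) using 2
    push_cast; linear_combination -e2 + 2 * θ * e1
  · convert v.map_sub_le (v.map_sub_le (ml (ml ha hn) hn) (ml hb hn)) (ml (ml hn hn) hn) using 2
    push_cast; linear_combination q - θ ^ 2 * e1 + θ * e2

theorem fix {g : GQ} {x y : Qb} {n : (Cv Qb (A : ℚ) (B : ℚ)).Nonsingular x y}
    (e : ga g (.some x y n : Pt A B) = .some x y n) : g x = x ∧ g y = y := by
  simpa only [Point.some.injEq] using (ga_some g n).symm.trans e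

theorem db {x y x' y' e : Qb} (n : (Cv Qb (A : ℚ) (B : ℚ)).Nonsingular x y)
    {n' : (Cv Qb (A : ℚ) (B : ℚ)).Nonsingular x' y'} (h : 2 • Point.some x y n = .some x' y' n')
    (k : e ^ 3 + algebraMap ℚ Qb A * e + algebraMap ℚ Qb B = 0) : y ≠ 0 ∧
    (x' - e) * (2 * y) ^ 2 = ((x - e) ^ 2 - (3 * e ^ 2 + algebraMap ℚ Qb A)) ^ 2 := by
  obtain ⟨μ, -, a, b⟩ := dbl two_ne_zero n
  rw [h, xp_some] at a
  rw [h, zp_some] at b
  refine ⟨fun z => by simp [z] at b, ?_⟩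
  have q := eqn n
  linear_combination 4 * y ^ 2 * a - ((x ^ 2 - algebraMap ℚ Qb A) ^ 2 -
    8 * algebraMap ℚ Qb B * x) * b - 4 * e * q - (8 * x + 4 * e) * k

variable {P : Ideal (𝓞 Qb)}

theorem ad (hΔ : W.Δ ≠ 0) (hm : GlobalMinimal (Wq W)) (h : Md (Wq W) A B u r s t) (o : Ov p P)
    (h2 : p ≠ 2) (b : (p : ℤ) ∣ W.Δ) (c : (p : ℤ) ∣ W.c₄) (Q : Pt A B) (h8 : 8 • Q = 0)
    (f : ∀ i ∈ inP P, ga i Q = Q) : 4 • Q = 0 := by
  by_contra h4
  obtain ⟨O, H⟩ := ex_vd o h2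
  have f2 : ∀ i ∈ inP P, ga i (2 • Q) = 2 • Q := fun i m => by rw [map_nsmul, f i m]
  rw [show 4 = 2 * 2 from rfl, mul_nsmul] at h4
  rw [show 8 = 2 * 2 * 2 from rfl, mul_nsmul, mul_nsmul] at h8
  rcases Q with _ | ⟨x, y, n⟩
  · exact h4 (by rw [← Point.zero_def, nsmul_zero, nsmul_zero])
  generalize e1 : 2 • Point.some x y n = R at f2 h4 h8
  rcases R with _ | ⟨x', y', n'⟩
  · exact h4 (nsmul_zero _)
  generalize e2 : 2 • Point.some x' y' n' = T at h4 h8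
  rcases T with _ | ⟨e, z, m⟩
  · exact h4 rfl
  obtain rfl := (two_tors two_ne_zero m).1 h8
  have k : e ^ 3 + algebraMap ℚ Qb A * e + algebraMap ℚ Qb B = 0 := by
    linear_combination -eqn m
  obtain ⟨y0, a1⟩ := db n e1 k
  obtain ⟨y1, a2⟩ := db n' e2 k
  have a3 : 3 * e ^ 2 + algebraMap ℚ Qb A = (x' - e) ^ 2 := by
    rw [sub_self, zero_mul, eq_comm, pow_eq_zero_iff two_ne_zero] at a2
    linear_combination -a2
  have a4 : y' ^ 2 = (x' - e) ^ 2 * (3 * e + 2 * (x' - e)) := by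
    linear_combination eqn n' + k + (x' - e) * a3
  have x0 : x' - e ≠ 0 := fun z => y1 (by simpa [z] using a4)
  have d : x' - e = (((x - e) ^ 2 - (x' - e) ^ 2) / (2 * y)) ^ 2 := by
    rw [div_pow, eq_div_iff (by simpa using y0), a1, a3]
  set U := (IntermediateField.fixedField (inP P)).toSubfield
  have m1 : x ∈ U ∧ y ∈ U := ⟨fun g => (fix (f g.1 g.2)).1, fun g => (fix (f g.1 g.2)).2⟩
  have m2 : x' ∈ U ∧ y' ∈ U := ⟨fun g => (fix (f2 g.1 g.2)).1, fun g => (fix (f2 g.1 g.2)).2⟩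
  have m3 : e ∈ U := fun g => (fix (n := m) (by rw [← e2, map_nsmul, f2 g.1 g.2])).1
  have m4 := U.sub_mem m2.1 m3
  refine ad0 H hΔ hm h b c (U.div_mem m2.2 m4) (U.div_mem (U.sub_mem (U.pow_mem
    (U.sub_mem m1.1 m3) 2) (U.pow_mem m4 2)) (U.mul_mem (natCast_mem U 2) m1.2)) k ?_ ?_
  · rw [Nat.cast_ofNat, ← d, div_pow, a4, mul_div_cancel_left₀ _ (pow_ne_zero 2 x0)]
    ring
  · rw [Nat.cast_ofNat, show 4 = 2 * 2 from rfl, pow_mul, ← d, a3]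

theorem m0 (H : Vd v U p) (hΔ : W.Δ ≠ 0) (h : Md (Wq W) A B u r s t) (b : (p : ℤ) ∣ W.Δ)
    (c : ¬ (p : ℤ) ∣ W.c₄) (hU : ∀ x y, To A B x y → x ∈ U) : False := by
  haveI : (Wq W).IsElliptic := ⟨by simpa using hΔ⟩
  have hD : 4 * (A : ℚ) ^ 3 + 27 * (B : ℚ) ^ 2 ≠ 0 := by exact_mod_cast Md.hD h
  obtain ⟨u0, -⟩ := ab h
  obtain ⟨c4, d⟩ := cd h
  have rt : ∀ x : Qb, ∃ r, r ^ 2 = x := fun x => IsAlgClosed.exists_pow_nat_eq x two_pos
  have i0 : ∀ {e₁ e₂ e₃}, Rt A B e₁ e₂ e₃ → v (et W u e₁) ≤ 1 := fun {e₁ e₂ e₃} t =>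
    int H.iz (et_eq h (by rw [t.a, t.b]; linear_combination e₁ ^ 2 * t.s))
  have i1 : ∀ {e₁ e₂ e₃}, Rt A B e₁ e₂ e₃ → v ((e₁ - e₂) / u ^ 2) ≤ 1 := fun {e₁ e₂ e₃} t => by
    rw [← H.two 2]
    convert v.map_sub_le (i0 t) (i0 t.rot) using 2
    simp only [et]; ring
  have dd : ∀ {e₁ e₂ e₃}, Rt A B e₁ e₂ e₃ → (W.Δ : Qb) = 2 ^ 4 * ((e₁ - e₂) / u ^ 2 *
      ((e₁ - e₃) / u ^ 2 * ((e₂ - e₃) / u ^ 2))) ^ 2 := fun {e₁ e₂ e₃} t => by
    rw [t.a, t.b] at d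
    obtain rfl : e₃ = -e₁ - e₂ := by linear_combination t.s
    field_simp
    linear_combination d
  obtain ⟨e₁, e₂, e₃, t, h12⟩ : ∃ e₁ e₂ e₃, Rt A B e₁ e₂ e₃ ∧ v ((e₁ - e₂) / u ^ 2) < 1 := by
    obtain ⟨e₁, e₂, e₃, -, -, -, a, b', c⟩ := three_roots (L := Qb) two_ne_zero hD
    have t : Rt A B e₁ e₂ e₃ := ⟨a, b', c⟩
    by_contra k
    push Not at k
    have := (H.lt _).2 b
    rw [dd t, H.two] at this
    have := sq this
    rw [map_mul, map_mul] at this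
    exact absurd this (not_lt.2 (one_le_mul (k _ _ _ t) (one_le_mul (k _ _ _ t.swap) (k _ _ _ t.rot))))
  have h13 : v ((e₁ - e₃) / u ^ 2) = 1 := (i1 t.swap).antisymm (not_lt.1 fun z => c ((H.lt _).1 (by
    have y := v.map_add_lt h12 z
    convert lt_mul (H.nz 16) (v.map_sub_lt (lt_mul y.le y) (lt_mul (H.nz 3) (lt_mul z.le h12)))
      using 2
    rw [t.a] at c4
    obtain rfl : e₃ = -e₁ - e₂ := by linear_combination t.s
    field_simp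
    push_cast
    linear_combination c4)))
  have D0 : (W.Δ : Qb) ≠ 0 := Int.cast_ne_zero.2 hΔ
  have n12 : v ((e₁ - e₂) / u ^ 2) ≠ 0 := v.ne_zero_iff.2 fun e => D0 (by rw [dd t, e]; ring)
  have sc : ∀ {x e R : Qb}, R ^ 2 = (x - e) / u ^ 2 → (u * R) ^ 2 = x - e := fun a => by
    rw [mul_pow, a, mul_div_cancel₀ _ (pow_ne_zero 2 u0)]
  have key : ∀ k : ℕ, ∃ x y, To A B x y ∧
      v ((x - e₁) / u ^ 2) ^ 2 ^ (k + 1) = v ((e₁ - e₂) / u ^ 2) := fun k => by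
    induction k with
    | zero =>
      obtain ⟨r, hr⟩ := rt ((e₁ - e₂) / u ^ 2)
      obtain ⟨s, hs⟩ := rt ((e₁ - e₃) / u ^ 2)
      refine ⟨_, _, t.half hD (t.two hD) (r₁ := 0) (by ring) (sc hr) (sc hs), ?_⟩
      rw [← map_pow, show (e₁ + (0 + u * r) * (0 + u * s) - e₁) / u ^ 2 = r * s by
        field_simp; ring, zero_add, pow_one, mul_pow, hr, hs, map_mul, h13, mul_one]
    | succ k ih =>
      obtain ⟨x, y, h, e⟩ := ih
      have l1 : v ((x - e₁) / u ^ 2) < 1 := (pow_lt_one_iff (by positivity)).1 (e ▸ h12)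
      have x0 : v ((x - e₁) / u ^ 2) ≠ 0 := fun z => n12 (by rw [← e, z, zero_pow (by positivity)])
      have l2 : v ((e₁ - e₂) / u ^ 2) < v ((x - e₁) / u ^ 2) := e ▸ pow_lt_self_of_lt_one₀
        (zero_lt_iff.2 x0) l1 (Nat.one_lt_two_pow (by omega))
      obtain ⟨r₁, a⟩ := rt ((x - e₁) / u ^ 2)
      obtain ⟨r₃, c⟩ := rt ((x - e₃) / u ^ 2)
      have r1 : v r₁ < 1 := sq (a ▸ l1)
      have r3 : v r₃ = 1 := (pow_eq_one_iff_left two_ne_zero).1 (by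
        rw [← map_pow, c, show (x - e₃) / u ^ 2 = (e₁ - e₃) / u ^ 2 + (x - e₁) / u ^ 2 by ring,
          v.map_add_eq_of_lt_left (h13 ▸ l1), h13])
      obtain ⟨r₂, b, f⟩ : ∃ r₂, r₂ ^ 2 = (x - e₂) / u ^ 2 ∧ v (r₁ + r₂) = v r₁ := by
        obtain ⟨r₂, b⟩ := rt ((x - e₂) / u ^ 2)
        have w : v r₂ = v r₁ := (pow_left_inj₀ zero_le' zero_le' two_ne_zero).1 (by
          rw [← map_pow, ← map_pow, a, b, show (x - e₂) / u ^ 2 =
            (x - e₁) / u ^ 2 + (e₁ - e₂) / u ^ 2 by ring, v.map_add_eq_of_lt_left l2])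
        by_contra k
        push Not at k
        have := v.map_add_lt ((v.map_add_le le_rfl w.le).lt_of_ne (k r₂ b))
          ((v.map_add_le le_rfl (by rw [v.map_neg, w])).lt_of_ne (k (-r₂) (by rw [neg_sq, b])))
        rw [show r₁ + r₂ + (r₁ + -r₂) = 2 * r₁ by ring, map_mul, H.v2, one_mul] at this
        exact lt_irrefl _ this
      refine ⟨_, _, t.half hD h (sc a) (sc b) (sc c), ?_⟩
      rw [show (e₁ + (u * r₁ + u * r₂) * (u * r₁ + u * r₃) - e₁) / u ^ 2 = (r₁ + r₂) * (r₁ + r₃) by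
        field_simp; ring, map_mul, f, v.map_add_eq_of_lt_right (r3 ▸ r1), r3, mul_one,
        pow_succ' 2, pow_mul, ← map_pow, a, e]
  obtain ⟨k, hk⟩ := pow_unbounded_of_one_lt W.Δ.natAbs H.hp.one_lt
  obtain ⟨x, y, h, e⟩ := key k
  have l := H.un _ (U.div_mem (U.sub_mem (hU x y h) (hU _ _ (t.two hD))) (U.pow_mem
    (SubfieldClass.ratCast_mem U u) 2)) ((pow_lt_one_iff (by positivity)).1 (e ▸ h12))
  have := H.dv (2 ^ (k + 1)) W.Δ (by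
    rw [dd t, H.two, pow_two]
    refine le_mul (le_mul h12.le (le_mul h13.le (i1 t.rot))) ?_
    rw [mul_comm]
    exact le_mul (le_mul h13.le (i1 t.rot)) (e ▸ pow_le_pow_left' l _))
  have := Nat.le_of_dvd (Int.natAbs_pos.2 hΔ) (Int.natCast_dvd.1 (by exact_mod_cast this))
  exact absurd (hk.trans_le (Nat.pow_le_pow_right H.hp.pos
    (k.lt_two_pow_self.le.trans (Nat.pow_le_pow_right two_pos k.le_succ)))) (not_lt.2 this)

end Am

open NumberField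
open Vale.Agent.P022 (Qb GQ)
open Vale.Agent.P022E.GW (Ov)
open Vale.Agent.P004M.TE (Pt ga)
open Vale.Agent.P027M.S (Inert)

variable {W : WeierstrassCurve ℤ} {A B : ℤ} {u r s t : ℚ} {p : ℕ} {P : Ideal (𝓞 Qb)}

/-- **additive reduction**: inertia fixes no point of order eight -/
theorem adv (hΔ : W.Δ ≠ 0) (hm : P014.GlobalMinimal (Lc.Wq W)) (h : Sm.Md (Lc.Wq W) A B u r s t)
    (o : Ov p P) (h2 : p ≠ 2) (hb : (p : ℤ) ∣ W.Δ) (hc : (p : ℤ) ∣ W.c₄) :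
    ¬ ∃ Q : Pt A B, 8 • Q = 0 ∧ 4 • Q ≠ 0 ∧ ∀ g, Inert P g → ga g Q = Q :=
  fun ⟨Q, a, b, c⟩ => b (Am.ad hΔ hm h o h2 hb hc Q a c)

/-- **multiplicative reduction**: inertia moves a point of order a power of two -/
theorem m1 (hΔ : W.Δ ≠ 0) (h : Sm.Md (Lc.Wq W) A B u r s t) (o : Ov p P) (h2 : p ≠ 2)
    (hb : (p : ℤ) ∣ W.Δ) (hc : ¬ (p : ℤ) ∣ W.c₄) :
    ∃ g, Inert P g ∧ ∃ (Q : Pt A B) (n : ℕ), 2 ^ n • Q = 0 ∧ ga g Q ≠ Q := by
  by_contra k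
  push Not at k
  obtain ⟨O, H⟩ := Am.ex_vd o h2
  exact Am.m0 H hΔ h hb hc fun x y ⟨_, n, e⟩ g => (Am.fix (k g.1 g.2 _ n e)).1

end Vale.Agent.P014T.Gt
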