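import Vale.Agent.P014T.Gt.M2
import Vale.Agent.P014T.Gt.Am
import Vale.Agent.P014T.St
import Vale.Agent.P014T.Iv.Lg

/-! # P014T, row ELC: the reduction type is seen by the representation -/

set_option linter.all false

open scoped Classical
open WeierstrassCurve NumberField Matrix

noncomputable section

namespace Vale.Agent.P014T.Gt

open Vale.Agent.P014T.Lc Vale.Agent.P014T.Sm Vale.Agent.P014T.Top P027M.K
open Vale.Agent.P004M.TE hiding Fb
open Vale.Agent.P022E.GW (Ov Fb)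
open Vale.Agent.P027M.S (Inert)

variable {W : WeierstrassCurve ℤ} {p : ℕ} {A B : ℤ} {u r s t : ℚ}
  (hD : 4 * (A : ℚ) ^ 3 + 27 * (B : ℚ) ^ 2 ≠ 0)

theorem mt_vec (g : GQ) (x : Tm (A : ℚ) B) :
    mt hD g *ᵥ (bs hD).equivFun x = (bs hD).equivFun (rho _ _ g x) :=
  LinearMap.toMatrix_mulVec_repr (bs hD) (bs hD) (rho _ _ g) x

theorem mt_one {g : GQ} : mt hD g = 1 ↔ ∀ (n : ℕ) (Q : Pt A B), 2 ^ n • Q = 0 → ga g Q = Q := by
  refine ⟨fun e n Q k => ?_, fun k => ?_⟩
  · obtain ⟨x, rfl⟩ := TM.exists_cp (hdiv hD) k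
    have := mt_vec hD g x
    rw [e, one_mulVec] at this
    rw [← cp_rho, ← (bs hD).equivFun.injective this]
  · rw [mt_eq, show rho (A : ℚ) B g = 1 from LinearMap.ext fun x => TM.ext fun n =>
      k n _ (TM.pow_smul_cp x n), map_one]

variable (h : Md (Wq W) A B u r s t) (h2 : p ≠ 2)
include h h2

/-- **good reduction** -/
theorem gd (hg : ¬ (p : ℤ) ∣ W.Δ) : Gd (mt hD) (p + 1 - np W p) p := fun P o => by
  refine ⟨fun g k => (mt_one hD).2 fun n Q e => (good h o h2 hg e).1 g k, fun φ k => ?_⟩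
  set S : ℤ := np W p - p - 1 with hS
  have e : rho (A : ℚ) B φ * rho (A : ℚ) B φ + S • rho (A : ℚ) B φ +
      (p : ℤ) • (1 : Module.End ℤ_[2] (Tm A B)) = 0 := LinearMap.ext fun x => TM.ext fun n => by
    simpa only [LinearMap.add_apply, LinearMap.smul_apply, Module.End.mul_apply, LinearMap.zero_apply,
      Module.End.one_apply, map_add, map_zsmul, cp_rho, map_zero] using
        (good h o h2 hg (TM.pow_smul_cp x n)).2 φ k
  have e' := congrArg (LinearMap.toMatrixAlgEquiv (bs hD)) e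
  rw [map_add, map_add, map_mul, map_zsmul, map_zsmul, map_one, map_zero, ← mt_eq,
    ← Int.cast_smul_eq_zsmul ℤ_[2], ← Int.cast_smul_eq_zsmul ℤ_[2], Int.cast_natCast] at e'
  have d : (mt hD φ).det = p := (Ki.det_mt hD φ).trans (Subtype.ext (Iv.cy_fb' o h2 k))
  have p0 : (p : ℤ_[2]) ≠ 0 := Nat.cast_ne_zero.2 o.1.ne_zero
  rw [show (p : ℤ) + 1 - np W p = -S by rw [hS]; ring, Int.cast_neg]
  rcases mat_ch e' with c | c
  · exact c.1
  have h0 := congrFun (congrFun e' 0) 0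
  generalize mt hD φ = M at *
  generalize M 0 0 = z at c
  subst c
  simp [trace_fin_two, det_fin_two] at h0 d ⊢
  exact mul_left_cancel₀ (a := z) (fun c => p0 (by rw [← d, c]; ring)) (by linear_combination h0 + d)

/-- **multiplicative reduction** -/
theorem mu (hΔ : W.Δ ≠ 0) (hb : (p : ℤ) ∣ W.Δ) (hc : ¬ (p : ℤ) ∣ W.c₄) :
    Mu (mt hD) (p - np W p) p := fun P o => by
  obtain ⟨g, k, Q, n, e, c⟩ := m1 hΔ h o h2 hb hc
  have c' : mt hD g ≠ 1 := fun a => c ((mt_one hD).1 a n Q e)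
  refine ⟨⟨g, k, c'⟩, fun v i φ f => ?_⟩
  obtain ⟨-, R, r0, r1, r2, r3, r4⟩ := m2 hΔ h o h2 hb hc
  have a := mt_vec hD g (TM.mk R r0 r2)
  have b := mt_vec hD φ (TM.mk R r0 r2)
  rw [show rho _ _ g (TM.mk R r0 r2) = TM.mk R r0 r2 from TM.ext (r3 g k)] at a
  rw [show rho _ _ φ (TM.mk R r0 r2) = (((p : ℤ) - np W p) * p) • TM.mk R r0 r2 from TM.ext fun n =>
    (r4 φ f n).trans (map_zsmul (TM.cp n) _ (TM.mk R r0 r2)).symm, map_zsmul] at b
  have x0 : (bs hD).equivFun (TM.mk R r0 r2) ≠ 0 := (bs hD).equivFun.map_ne_zero_iff.2 fun z =>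
    r1 ((congrArg (TM.cp 1) z).trans (map_zero _))
  replace i := i g k
  rw [← Int.cast_smul_eq_zsmul ℤ_[2]] at b ⊢
  generalize (bs hD).equivFun (TM.mk R r0 r2) = x at *
  generalize mt hD g = U at *
  generalize mt hD φ = M at *
  generalize (((p - np W p) * p : ℤ) : ℤ_[2]) = l at *
  have d : ∀ j, x j • v = v j • x := by
    have : x 0 * v 1 = x 1 * v 0 := by_contra fun z => c' (by
      have a0 := congrFun a 0
      have a1 := congrFun a 1
      have i0 := congrFun i 0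
      have i1 := congrFun i 1
      simp only [mulVec, dotProduct, Fin.sum_univ_two] at a0 a1 i0 i1
      rw [eta_fin_two U, one_fin_two,
        mul_right_cancel₀ (sub_ne_zero.2 z) (show U 0 0 * _ = 1 * _ by
          linear_combination v 1 * a0 - x 1 * i0),
        mul_right_cancel₀ (sub_ne_zero.2 z) (show U 0 1 * _ = 0 * _ by
          linear_combination x 0 * i0 - v 0 * a0),
        mul_right_cancel₀ (sub_ne_zero.2 z) (show U 1 0 * _ = 0 * _ by
          linear_combination v 1 * a1 - x 1 * i1),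
        mul_right_cancel₀ (sub_ne_zero.2 z) (show U 1 1 * _ = 1 * _ by
          linear_combination x 0 * i1 - v 0 * a1)])
    intro j
    ext i
    fin_cases i <;> fin_cases j <;> simp [mul_comm, this]
  obtain ⟨j, n⟩ := Function.ne_iff.1 x0
  refine smul_right_injective _ n ?_
  change x j • _ = x j • _
  rw [← mulVec_smul, smul_comm, d, mulVec_smul, b, smul_comm]

/-- **additive reduction** -/
theorem no (hΔ : W.Δ ≠ 0) (hm : P014.GlobalMinimal (Wq W)) (hb : (p : ℤ) ∣ W.Δ)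
    (hc : (p : ℤ) ∣ W.c₄) : No (mt hD) p := fun P o v i => by
  obtain ⟨x, rfl⟩ := (bs hD).equivFun.surjective v
  rw [show x = 0 from TM.ext fun n => ?_, map_zero]
  induction n with
  | zero => exact (TM.cp_zero x).trans (map_zero _).symm
  | succ n ih =>
    refine by_contra fun c => adv hΔ hm h o h2 hb hc ⟨TM.cp (n + 3) x, (TM.cp_add x n 3).trans
      (ih.trans (map_zero _)), fun z => c ((TM.cp_add x (n + 1) 2).symm.trans
        (z.trans (map_zero _).symm)), fun g k => ?_⟩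
    rw [← cp_rho, (bs hD).equivFun.injective ((mt_vec hD g x).symm.trans (i g k))]

end Vale.Agent.P014T.Gt

namespace Vale.Agent.P014T.Top

open Vale.Agent.P014T.Lc Vale.Agent.P014T.Sm Vale.Agent.P014T.Gt Vale.Agent.P004F

/-- **row ELC** -/
theorem elc : ELC := fun A B h p hp h2 => by
  have : Fact p.Prime := ⟨hp⟩
  obtain ⟨D, hm⟩ := ex_min (Wq (sI A B))
  obtain ⟨W, e⟩ := Lc.ex_int hm.1
  have k : Md (Wq W) A B D.u D.r D.s D.t := by
    have := Vc.ch_of D (Wq (sI A B))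
    rwa [e, show Wq (sI A B) = ⟨0, 0, 0, A, B⟩ by ext <;> simp [sI]] at this
  rw [e] at hm
  have hΔ : W.Δ ≠ 0 := fun z => hq h (by
    have := Md.disc k
    rw [map_Δ, z, map_zero, mul_zero] at this
    linear_combination -this / 16)
  have : (Wq W).IsElliptic := ⟨by simpa using hΔ⟩
  obtain ⟨a1, a2⟩ := lf_all W hΔ hm hp
  replace a2 := a2 0
  rw [Lk.lf_md k] at a1
  rw [zero_add, zero_add, pow_one, pow_zero, (Lf.lf_mul _).map_one, Lk.lf_md k, Lk.lf_md k,
    ← a1] at a2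
  have p0 : (p : ℤ) ≠ 0 := Nat.cast_ne_zero.2 hp.ne_zero
  by_cases hb : (p : ℤ) ∣ W.Δ
  · rw [ep, if_pos hb] at a1 a2
    rw [add_zero] at a1
    by_cases hc : (p : ℤ) ∣ W.c₄
    · have n := no (hq h) k h2 hΔ hm hb hc
      refine ⟨fun _ _ => n, .inr ⟨by rw [a2]; ring, fun P o => ⟨by_contra fun c => ?_,
        fun v i φ _ => by rw [n P o v i]; simp⟩⟩⟩
      push Not at c
      exact one_ne_zero (n P o 1 fun g k => by rw [c g k, one_mulVec])
    · refine ⟨fun z _ => ?_, .inr ⟨by rw [a2]; ring, a1 ▸ mu (hq h) k h2 hΔ hb hc⟩⟩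
      obtain ⟨P, o⟩ := P022K.GW.Pl.ex_ov hp
      have := (m2 hΔ k o h2 hb hc).1
      omega
  · rw [ep, if_neg hb] at a1 a2
    exact ⟨fun z z' => (p0 (by rw [z, z'] at a2; linarith)).elim,
      .inl ⟨by rw [a2]; ring, a1 ▸ gd (hq h) k h2 hb⟩⟩

end Vale.Agent.P014T.Top
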