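import Vale.Agent.P014T.Gt.Rd

/-! # P014T, block GLT: good reduction -/

set_option linter.all false

open scoped Classical
open WeierstrassCurve WeierstrassCurve.Affine P179W NumberField

noncomputable section

namespace Vale.Agent.P014T.Gt

open Vale.Agent.P014T.Lc Vale.Agent.P014T.Vc Vale.Agent.P014T.Sm P004N.H169.LF
open Vale.Agent.P004M.TE hiding Fb
open Vale.Agent.P022E.GW (Ov Fb)
open Vale.Agent.P027M.S (Inert)
open Vale.Agent.P014 (act)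

variable {W : WeierstrassCurve ℤ} {p : ℕ} {P : Ideal (𝓞 Qb)}

/-- the Frobenius of the reduced curve is a root of `a X² + b X + c` -/
def Fq (W : WeierstrassCurve ℤ) (p : ℕ) (a b c : ℤ) : Prop :=
  ∀ (κ : Type) [Field κ] [IsAlgClosed κ] [CharP κ p] (F : (W⁄κ).toAffine.Point →+ _), IsF p F →
    ∀ R, a • F (F R) + b • F R + c • R = 0

/-- **inertia and Frobenius on the torsion with nonsingular reduction** -/
theorem ex_tor (W : WeierstrassCurve ℤ) (o : Ov p P) (h2 : p ≠ 2) : ∃ (O : ValuationSubring Qb)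
    (hc : CoeffIn ((Wq W)⁄Qb) {z | O.valuation z ≤ 1}),
    (∀ n : ℤ, O.valuation n ≤ 1) ∧ (∀ n : ℤ, O.valuation n < 1 ↔ (p : ℤ) ∣ n) ∧
    (¬ (p : ℤ) ∣ W.Δ → E0 hc = ⊤) ∧ ∀ n, ∀ Q ∈ E0 hc, 2 ^ n • Q = 0 →
      (∀ g, Inert P g → act _ g Q = Q) ∧ ∀ φ, Fb p P φ → ∀ a b c, Fq W p a b c →
        a • act _ φ (act _ φ Q) + b • act _ φ Q + c • Q = 0 := by
  obtain ⟨κ, _, _, _, O, hc, rd, vi, vl, tp, i, H⟩ := ex_rd W o h2
  have : Fact p.Prime := ⟨o.1⟩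
  refine ⟨O, hc, vi, vl, tp, fun n Q m e => ⟨fun g k => ?_, fun φ k a b c q => ?_⟩⟩
  · obtain ⟨m', e'⟩ := H g 1 one_ne_zero (fun x => (pow_one x).symm ▸ k x) _ IsF.zero ⟨Q, m⟩
    refine sub_eq_zero.1 (congrArg Subtype.val (i n (⟨_, m'⟩ - ⟨Q, m⟩) (Subtype.ext ?_) ?_))
    · change 2 ^ n • (act _ g Q - Q) = 0
      rw [nsmul_sub, ← map_nsmul, e, map_zero, sub_zero]
    · rw [map_sub, e']; exact sub_self _
  · have f : IsF p (Point.map (W' := W) (frobenius κ p).toIntAlgHom) := fun x y h => ⟨_, rfl⟩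
    obtain ⟨m1, e1⟩ := H φ p o.1.ne_zero k _ f ⟨Q, m⟩
    obtain ⟨m2, e2⟩ := H φ p o.1.ne_zero k _ f ⟨_, m1⟩
    refine congrArg Subtype.val (i n (a • ⟨_, m2⟩ + b • ⟨_, m1⟩ + c • ⟨Q, m⟩) (Subtype.ext ?_) ?_)
    · change 2 ^ n • (a • act _ φ (act _ φ Q) + b • act _ φ Q + c • Q) = 0
      simp only [nsmul_add, smul_comm (2 ^ n), ← map_nsmul, e, map_zero, zsmul_zero, add_zero]
    · rw [map_add, map_add, map_zsmul, map_zsmul, map_zsmul, e2, e1]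
      exact q κ _ f _

theorem fr_short [Fact p.Prime] {κ : Type} [Field κ] [IsAlgClosed κ] [Algebra (ZMod p) κ]
    {a b : ZMod p} {V : WeierstrassCurve κ} (hV : V = Cv κ a b) (h2 : p ≠ 2)
    (hD : 4 * a ^ 3 + 27 * b ^ 2 ≠ 0) {F : V.toAffine.Point →+ _} (hF : IsF p F) (R) :
    F (F R) + cs a b • F R + (p : ℤ) • R = 0 := by
  subst hV
  obtain rfl : F = P004M.TE.Fb := AddMonoidHom.ext (by
    rintro (_ | ⟨x, y, h⟩)
    · exact (map_zero F).trans (map_zero _).symm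
    · obtain ⟨_, e⟩ := hF x y h
      rw [e, P004M.TE.Fb, pa_some]
      simp only [FiniteField.coe_frobeniusAlgHom, ZMod.card])
  have := frob_ch (by rwa [ZMod.ringChar_zmod_n]) hD R
  rwa [ZMod.card] at this

theorem dz [Fact p.Prime] (hg : ¬ (p : ℤ) ∣ W.Δ) : (W.map (Int.castRingHom (ZMod p))).Δ ≠ 0 :=
  (W.map_Δ _).trans_ne (mt (ZMod.intCast_zmod_eq_zero_iff_dvd _ p).1 hg)

theorem fq1 [Fact p.Prime] (h2 : p ≠ 2) (h1 : W.a₁ = 0) (h3 : W.a₃ = 0) (k : (p : ℤ) ∣ W.a₂)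
    (hg : ¬ (p : ℤ) ∣ W.Δ) : Fq W p 1 (np W p - p - 1) p := fun κ _ _ _ F hF R => by
  letI : Algebra (ZMod p) κ := ZMod.algebra κ p
  have e : W.map (Int.castRingHom (ZMod p)) = sw (W.a₄ : ZMod p) W.a₆ := by
    ext <;> simp [sw, h1, h3, ZMod.intCast_zmod_eq_zero_iff_dvd, k]
  have d := dz hg
  have c := @cnt_sw (ZMod p) _ _ (Classical.decEq _) (by rwa [ZMod.ringChar_zmod_n]) W.a₄ W.a₆
  rw [one_smul, np, card_point _ d, e, show ((_ + 1 : ℕ) : ℤ) - p - 1 = cs (W.a₄ : ZMod p) W.a₆ by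
    rw [Nat.cast_succ, c, ZMod.card, cs]; ring]
  rw [e, sw_Δ] at d
  refine fr_short ?_ h2 (right_ne_zero_of_mul d) hF R
  ext
  exacts [(congrArg _ h1).trans Int.cast_zero, (CharP.intCast_eq_zero_iff κ p _).2 k,
    (congrArg _ h3).trans Int.cast_zero, (map_intCast _ _).symm, (map_intCast _ _).symm]

theorem cn3 : ∀ a d : ZMod 3, a ≠ 0 → d ≠ 0 → ∃ η ∈ ({1, -1} : Finset ℤ), a = η ∧
    (d = η ∧ ((Finset.univ.filter fun z : ZMod 3 × ZMod 3 => z.2 ^ 2 = z.1 ^ 3 + a * z.1 ^ 2 + d).card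
      : ℤ) = 3 + 2 * η ∨ d = -η ∧ ((Finset.univ.filter fun z : ZMod 3 × ZMod 3 =>
        z.2 ^ 2 = z.1 ^ 3 + a * z.1 ^ 2 + d).card : ℤ) = 3 - η) := by
  decide

theorem fq3 (h1 : W.a₁ = 0) (h3 : W.a₃ = 0) (k : (W.a₂ : ZMod 3) ≠ 0) (k' : (W.a₄ : ZMod 3) = 0)
    (hg : ¬ ((3 : ℕ) : ℤ) ∣ W.Δ) : Fq W 3 1 (np W 3 - (3 : ℕ) - 1) (3 : ℕ) := fun κ _ _ _ F hF R => by
  have e : W.map (Int.castRingHom (ZMod 3)) = Th.oc (W.a₂ : ZMod 3) W.a₆ := by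
    ext <;> simp [h1, h3, k']
  have d := dz hg
  have d' : (W⁄κ).Δ ≠ 0 := (W.map_Δ _).trans_ne (mt (CharP.intCast_eq_zero_iff κ 3 _).1 hg)
  have c : (np W 3 : ℤ) = (Finset.univ.filter fun z : ZMod 3 × ZMod 3 =>
      z.2 ^ 2 = z.1 ^ 3 + W.a₂ * z.1 ^ 2 + W.a₆).card + 1 := by
    rw [np, card_point _ d, e, cnt, Nat.cast_succ, ← Fintype.card_subtype,
      ← Nat.card_eq_fintype_card]
    congr 2
    exact Nat.card_congr (Equiv.subtypeEquivRight fun z => by rw [equation_iff]; simp)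
  obtain ⟨η, m, e2, H⟩ := cn3 W.a₂ W.a₆ k fun z => d (by rw [e, z]; simp [Δ, b₂, b₄, b₆, b₈])
  have hη : η = 1 ∨ η = -1 := by simpa using m
  have i : ∀ {n : ℤ} {z : ℤ}, (n : ZMod 3) = z → algebraMap ℤ κ n = z := fun a => by
    simpa using congrArg (ZMod.castHom dvd_rfl κ) a
  have eV : ∀ z : ℤ, (W.a₆ : ZMod 3) = z → W⁄κ = Th.oc (η : κ) z := fun z a => by
    ext
    exacts [(congrArg _ h1).trans Int.cast_zero, i e2, (congrArg _ h3).trans Int.cast_zero,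
      (i (z := 0) (by simpa using k')).trans Int.cast_zero, i a]
  rw [one_smul, c]
  rcases H with ⟨a, b⟩ | ⟨a, b⟩
  · have := eV _ a
    generalize W⁄κ = V at *
    subst this
    rw [b, show 3 + 2 * η + 1 - (3 : ℕ) - 1 = 2 * η by push_cast; ring]
    exact Th.two hη d' hF R
  · have := eV (-η) (by simpa using a)
    rw [Int.cast_neg] at this
    generalize W⁄κ = V at *
    subst this
    rw [b, show 3 - η + 1 - (3 : ℕ) - 1 = -η by push_cast; ring]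
    exact Th.one hη d' hF R

theorem Wc_nd (hp : p.Prime) (h2 : p ≠ 2) (c : ℤ) (hg : ¬ (p : ℤ) ∣ W.Δ) : ¬ (p : ℤ) ∣ (Wc W c).Δ :=
  fun k => ((Nat.prime_iff_prime_int.1 hp).dvd_or_dvd (Wc_Δ c ▸ k)).elim (fun e => h2
    ((Nat.prime_dvd_prime_iff_eq hp Nat.prime_two).1 (Int.natCast_dvd_natCast.1
      ((Nat.prime_iff_prime_int.1 hp).dvd_of_dvd_pow e)))) hg

theorem sh3 : ∀ a : ZMod 3, ¬ a = 0 → ∀ b : ZMod 3,
    8 * b + 2 * (-b * a) * a + 3 * (-b * a) ^ 2 = 0 := by decide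

theorem ex_fq (hp : p.Prime) (h2 : p ≠ 2) (hg : ¬ (p : ℤ) ∣ W.Δ) :
    ∃ c, Fq (Wc W c) p 1 (np W p - p - 1) p := by
  have : Fact p.Prime := ⟨hp⟩
  by_cases k : ∃ c, (p : ℤ) ∣ (Wc W c).a₂
  · exact k.imp fun c k => Wc_np hp h2 c ▸ fq1 h2 rfl rfl k (Wc_nd hp h2 c hg)
  obtain rfl : p = 3 := by_contra fun h3 => k (by
    obtain ⟨c, e⟩ := ZMod.intCast_surjective (-(W.b₂ : ZMod p) / 3)
    have : (3 : ZMod p) ≠ 0 := by exact_mod_cast Sg.cast_ne Nat.prime_three h3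
    refine ⟨c, (ZMod.intCast_zmod_eq_zero_iff_dvd _ p).1 ?_⟩
    rw [Wc]; push_cast; rw [e]; field_simp; ring)
  push Not at k
  refine ⟨-W.b₄ * W.b₂, Wc_np hp h2 _ ▸ fq3 rfl rfl
    (mt (ZMod.intCast_zmod_eq_zero_iff_dvd _ 3).1 (k _)) ?_ (Wc_nd hp h2 _ hg)⟩
  have := mt (ZMod.intCast_zmod_eq_zero_iff_dvd _ 3).1 (k 0)
  simp only [Wc, mul_zero, add_zero] at this ⊢
  push_cast
  generalize (W.b₂ : ZMod 3) = a at *
  generalize (W.b₄ : ZMod 3) = b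
  exact sh3 a this b

variable {A B : ℤ} {u r s t : ℚ}

/-- **good reduction** -/
theorem good (h : Md (Wq W) A B u r s t) (o : Ov p P) (h2 : p ≠ 2) (hg : ¬ (p : ℤ) ∣ W.Δ) {n : ℕ}
    {Q : Pt A B} (e : 2 ^ n • Q = 0) : (∀ g, Inert P g → ga g Q = Q) ∧ ∀ φ, Fb p P φ →
      ga φ (ga φ Q) + (np W p - p - 1 : ℤ) • ga φ Q + (p : ℤ) • Q = 0 := by
  obtain ⟨c, q⟩ := ex_fq o.1 h2 hg
  obtain ⟨u, r, s, t, h⟩ := Wc_md h c
  obtain ⟨O, hc, -, -, tp, H⟩ := ex_tor (Wc W c) o h2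
  obtain ⟨Q, rfl⟩ := (iso h Qb).surjective Q
  obtain ⟨a, b⟩ := H n Q (tp (Wc_nd o.1 h2 c hg) ▸ trivial)
    ((iso h Qb).injective (by rw [map_nsmul, e, map_zero]))
  refine ⟨fun g k => by rw [← iso_act, a g k], fun φ k => ?_⟩
  have := congrArg (iso h Qb) (b φ k _ _ _ q)
  rwa [one_smul, map_add, map_add, map_zsmul, map_zsmul, iso_act, iso_act, map_zero] at this

end Vale.Agent.P014T.Gt
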