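import Vale.Agent.P014T.Gt.Gd

/-! # P014T, block GLT: multiplicative reduction -/

set_option linter.all false

open scoped Classical
open WeierstrassCurve WeierstrassCurve.Affine P179W NumberField Polynomial

noncomputable section

namespace Vale.Agent.P014T.Gt

open Vale.Agent.P014T.Lc Vale.Agent.P014T.Vc Vale.Agent.P014T.Sm
open Vale.Agent.P004M.TE hiding Fb
open Vale.Agent.P022E.GW (Ov Fb)
open Vale.Agent.P027M.S (Inert)

namespace Tw

variable {K Γ : Type} [Field K] [LinearOrderedCommGroupWithZero Γ] {v : Valuation K Γ}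

/-- the curve with given roots -/
abbrev ec (e₁ e₂ e₃ : K) : WeierstrassCurve K :=
  ⟨0, -(e₁ + e₂ + e₃), 0, e₁ * e₂ + e₁ * e₃ + e₂ * e₃, -(e₁ * e₂ * e₃)⟩

/-- the abscissa is a unit -/
def Un (v : Valuation K Γ) {E : WeierstrassCurve K} (Q : E.toAffine.Point) : Prop :=
  ∃ x y k, Q = .some x y k ∧ v x = 1

theorem sq1 {r : K} (h : v (r ^ 2) = 1) : v r = 1 :=
  (pow_eq_one_iff_left two_ne_zero).1 (by rwa [← map_pow])

theorem sub1 {a b : K} (h : v a = 1) (k : v b < 1) : v (a - b) = 1 :=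
  (v.map_sub_eq_of_lt_left (h ▸ k)).trans h

theorem fac1 {a b : K} (h : v a ≤ 1) (k : v b ≤ 1) (e : v (a * b) = 1) : v a = 1 :=
  le_antisymm h (by rw [← e, map_mul]; exact mul_le_of_le_one_right' k)

variable [IsAlgClosed K] (v2 : v 2 = 1)

theorem roots {a b c : K} (ha : v a = 1) (hb : v b < 1) (hc : v c < 1) : ∃ e₁ e₂ e₃,
    (⟨0, a, 0, b, c⟩ : WeierstrassCurve K) = ec e₁ e₂ e₃ ∧ v e₁ = 1 ∧ v e₂ < 1 ∧ v e₃ < 1 := by
  obtain ⟨e₁, e₂, e₃, rfl, rfl, rfl, h⟩ : ∃ e₁ e₂ e₃, a = -(e₁ + e₂ + e₃) ∧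
      b = e₁ * e₂ + e₁ * e₃ + e₂ * e₃ ∧ c = -(e₁ * e₂ * e₃) ∧ 1 ≤ v e₁ := by
    obtain ⟨e, he⟩ := IsAlgClosed.exists_root (k := K) (X ^ 3 + C a * X ^ 2 + C b * X + C c)
      (by rw [show degree _ = (3 : ℕ) by compute_degree!]; norm_num)
    obtain ⟨e', he'⟩ := IsAlgClosed.exists_root (k := K) (X ^ 2 + C (a + e) * X +
      C (b + e * (a + e))) (by rw [show degree _ = (2 : ℕ) by compute_degree!]; norm_num)
    simp only [IsRoot.def, eval_mul, eval_add, eval_pow, eval_C, eval_X] at he he'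
    by_contra k
    push Not at k
    have := v.map_add_lt (v.map_add_lt
      (k e e' (-a - e - e') (by ring) (by linear_combination he') (by linear_combination he - e * he'))
      (k e' e (-a - e - e') (by ring) (by linear_combination he') (by linear_combination he - e * he')))
      (k (-a - e - e') e e' (by ring) (by linear_combination he') (by linear_combination he - e * he'))
    rw [show e + e' + (-a - e - e') = -a by ring, v.map_neg] at this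
    exact this.ne ha
  have m : ∀ {z}, v (e₁ * z) < 1 → v z < 1 := fun k =>
    (le_mul_of_one_le_left' h).trans_lt (v.map_mul _ _ ▸ k)
  have p : v (e₂ * e₃) < 1 := m (by rwa [v.map_neg, mul_assoc] at hc)
  have s : v (e₂ + e₃) < 1 := m (by simpa only [mul_add, add_sub_cancel_right] using v.map_sub_lt hb p)
  have w : ∀ {x y : K}, v (x * y) < 1 → v (x + y) < 1 → v x < 1 := fun {x y} p s => not_le.1 fun k => by
    have : v y = v x := by
      rw [show y = -(x - (x + y)) by ring, v.map_neg, v.map_sub_eq_of_lt_left (s.trans_le k)]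
    rw [map_mul, this] at p
    exact p.not_ge (one_le_mul k k)
  refine ⟨e₁, e₂, e₃, rfl, ?_, w p s, w (mul_comm e₂ e₃ ▸ p) (add_comm e₂ e₃ ▸ s)⟩
  rw [v.map_neg] at ha
  simpa only [add_assoc, add_sub_cancel_right] using sub1 ha s

include v2

theorem step {e₁ e₂ e₃ : K} (hΔ : (ec e₁ e₂ e₃).Δ ≠ 0) (h₁ : v e₁ = 1) (h₂ : v e₂ < 1)
    (h₃ : v e₃ < 1) {Q : (ec e₁ e₂ e₃).toAffine.Point} (h : Un v Q) : ∃ Q', Un v Q' ∧ 2 • Q' = Q := by
  obtain ⟨x, y, k, rfl, hx⟩ := h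
  have rt : ∀ x : K, ∃ r, r ^ 2 = x := fun x => IsAlgClosed.exists_pow_nat_eq x two_pos
  obtain ⟨r₂, b⟩ := rt (x - e₂)
  have u₂ : v r₂ = 1 := sq1 (b ▸ sub1 hx h₂)
  obtain ⟨r₃, c, u⟩ : ∃ r, r ^ 2 = x - e₃ ∧ v (r₂ + r) = 1 := by
    obtain ⟨r, c⟩ := rt (x - e₃)
    have w : v r = 1 := sq1 (c ▸ sub1 hx h₃)
    by_contra n
    push Not at n
    have := v.map_add_lt ((v.map_add_le u₂.le w.le).lt_of_ne (n r c))
      ((v.map_add_le u₂.le (by rw [v.map_neg, w])).lt_of_ne (n (-r) (by rw [neg_sq, c])))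
    rw [show r₂ + r + (r₂ + -r) = 2 * r₂ by ring, map_mul, v2, u₂, one_mul] at this
    exact lt_irrefl _ this
  have u₃ : v r₃ = 1 := sq1 (c ▸ sub1 hx h₃)
  obtain ⟨r₁, a, rfl⟩ : ∃ r, r ^ 2 = x - e₁ ∧ y = r * r₂ * r₃ := by
    obtain ⟨r, a⟩ := rt (x - e₁)
    rcases sq_eq_sq_iff_eq_or_eq_neg.1 (show y ^ 2 = (r * r₂ * r₃) ^ 2 by
      rw [mul_pow, mul_pow, a, b, c]; linear_combination (equation_iff _ _).1 k.1) with e | e
    exacts [⟨r, a, e⟩, ⟨-r, by rw [neg_sq, a], by rw [e]; ring⟩]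
  have u₁ : v r₁ ≤ 1 := (pow_le_one_iff two_ne_zero).1 (by
    rw [← map_pow, a]; exact v.map_sub_le hx.le h₁.le)
  have w : ∀ {r e : K}, r ^ 2 = x - e → v r = 1 → v e < 1 → v (r₁ + r) = 1 := fun {r e} b i j =>
    fac1 (v.map_add_le u₁ i.le) (v.map_sub_le i.le u₁) (by
      rw [show (r₁ + r) * (r - r₁) = e₁ - e by linear_combination b - a]; exact sub1 h₁ j)
  have w₂ := w b u₂ h₂
  have w₃ := w c u₃ h₃
  have hX : v (e₂ + (r₁ + r₂) * (r₂ + r₃)) = 1 := by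
    rw [v.map_add_eq_of_lt_right] <;> rw [map_mul, w₂, u, mul_one]
    exact h₂
  have hY : (2 : K) * ((r₁ + r₂) * (r₁ + r₃) * (r₂ + r₃)) ≠ 0 := v.ne_zero_iff.1 (by
    rw [map_mul, map_mul, map_mul, v2, w₂, w₃, u]; simp)
  obtain rfl : e₁ = x - r₁ ^ 2 := by linear_combination a
  obtain rfl : e₂ = x - r₂ ^ 2 := by linear_combination b
  obtain rfl : e₃ = x - r₃ ^ 2 := by linear_combination c
  have k' := nonsing_of_Δ hΔ (x := x - r₂ ^ 2 + (r₁ + r₂) * (r₂ + r₃))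
    (y := (r₁ + r₂) * (r₁ + r₃) * (r₂ + r₃)) ((equation_iff _ _).2 (by ring))
  refine ⟨_, ⟨_, _, k', rfl, hX⟩, ?_⟩
  have n : (r₁ + r₂) * (r₁ + r₃) * (r₂ + r₃) ≠ (ec (x - r₁ ^ 2) (x - r₂ ^ 2) (x - r₃ ^ 2)).toAffine.negY
      (x - r₂ ^ 2 + (r₁ + r₂) * (r₂ + r₃)) ((r₁ + r₂) * (r₁ + r₃) * (r₂ + r₃)) := fun c => hY (by
    rw [negY] at c; linear_combination c)
  rw [two_nsmul, Point.add_self_of_Y_ne n, Point.some.injEq, show slope _ _ _ _ _ = r₁ + r₂ + r₃ by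
    rw [slope_of_Y_ne rfl n, div_eq_iff (sub_ne_zero.2 n), negY]; ring]
  simp only [addY, negY, negAddY, addX]
  constructor <;> ring

theorem tower {E : WeierstrassCurve K} (hc : CoeffIn E {z | v z ≤ 1}) (hΔ : E.Δ ≠ 0) (h1 : E.a₁ = 0)
    (h3 : E.a₃ = 0) (a2 : v E.a₂ = 1) (a4 : v E.a₄ < 1) (a6 : v E.a₆ < 1) :
    ∃ R : ℕ → E.toAffine.Point, R 0 = 0 ∧ R 1 ≠ 0 ∧ (∀ n, 2 • R (n + 1) = R n) ∧
      ∀ n, R n ∈ E0 hc := by
  have ns : ∀ Q : E.toAffine.Point, Un v Q → Ns v Q := by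
    rintro _ ⟨x, y, k, rfl, hx⟩
    by_contra n
    obtain ⟨-, n⟩ := not_or.1 n
    obtain ⟨a, b⟩ := not_or.1 n
    have := v.map_add_lt (v.map_add_lt (v.map_sub_lt (x := x * phi E x y) (y := y * psi E x y)
      (by rw [map_mul, hx, one_mul]; exact not_not.1 a)
      (by rw [map_mul]; exact (mul_le_of_le_one_left' (y_int hc k.1 hx.le)).trans_lt (not_not.1 b)))
      (y := x * E.a₄) (by rwa [map_mul, hx, one_mul])) (y := 2 * E.a₆) (by rwa [map_mul, v2, one_mul])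
    have q := (equation_iff _ _).1 k.1
    rw [show _ + _ = x ^ 3 by
      simp only [phi, psi, h1, h3] at q ⊢; linear_combination -2 * q, map_pow, hx, one_pow] at this
    exact lt_irrefl _ this
  obtain ⟨_, a, _, b, c⟩ := E
  obtain rfl := h1
  obtain rfl := h3
  obtain ⟨e₁, e₂, e₃, e, h₁, h₂, h₃⟩ := roots a2 a4 a6
  clear a2 a4 a6
  generalize (⟨0, a, 0, b, c⟩ : WeierstrassCurve K) = E at *
  subst e
  choose f f1 f2 using fun Q : {Q // Un v Q} => step v2 hΔ h₁ h₂ h₃ Q.2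
  have k := nonsing_of_Δ hΔ (x := e₁) (y := 0) ((equation_iff _ _).2 (by ring))
  let S : ℕ → {Q // Un v Q} := Nat.rec ⟨_, _, _, k, rfl, h₁⟩ fun _ Q => ⟨f Q, f1 Q⟩
  refine ⟨fun n => n.casesOn 0 fun n => (S n).1, rfl, Point.some_ne_zero k, ?_, ?_⟩ <;> rintro (_ | n)
  · exact (two_nsmul _).trans (Point.add_of_Y_eq rfl (by rw [negY]; ring))
  · exact f2 _
  · trivial
  · exact ns _ (S n).2

end Tw

variable {W : WeierstrassCurve ℤ} {p : ℕ} {P : Ideal (𝓞 Qb)}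

theorem fq_nd [hp : Fact p.Prime] (h2 : p ≠ 2) (h1 : W.a₁ = 0) (h3 : W.a₃ = 0)
    (k2 : ¬ (p : ℤ) ∣ W.a₂) (k4 : (p : ℤ) ∣ W.a₄) (k6 : (p : ℤ) ∣ W.a₆) :
    ((p : ℤ) - np W p = 1 ∨ (p : ℤ) - np W p = -1) ∧ Fq W p 0 1 (-((p - np W p) * p)) := by
  have z := ZMod.intCast_zmod_eq_zero_iff_dvd
  have n2 : (W.a₂ : ZMod p) ≠ 0 := mt (z _ p).1 k2
  have S : Sg.Sing (W.map (Int.castRingHom (ZMod p))) 0 0 :=
    ⟨by simp [(z _ p).2 k6], by simp [(z _ p).2 k4], by simp [h3]⟩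
  have t : ∀ m, Sg.tc (W.map (Int.castRingHom (ZMod p))) 0 m = m * m - W.a₂ := fun m => by
    simp [Sg.tc, h1, sq]
  have c := S.card
  rw [Nat.card_zmod] at c
  have H : (p : ℤ) - np W p = 1 ∧ (W.a₂ : ZMod p) ^ (p / 2) = 1 ∨
      (p : ℤ) - np W p = -1 ∧ (W.a₂ : ZMod p) ^ (p / 2) = -1 := by
    by_cases q : IsSquare (W.a₂ : ZMod p)
    · refine .inl ⟨?_, (ZMod.euler_criterion p n2).1 q⟩
      obtain ⟨m, e⟩ := q
      rw [S.card_two (m := m) (by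
        have : (2 : ZMod p) ≠ 0 := by exact_mod_cast Sg.cast_ne Nat.prime_two h2
        rw [S.c₄, b₂, show ∀ a : ZMod p, 4 * a = 2 * (2 * a) from fun a => by ring]
        simp [h1, this, n2]) (by rw [t, e, sub_self])] at c
      rw [np]; omega
    · refine .inr ⟨?_, (ZMod.pow_div_two_eq_neg_one_or_one p n2).resolve_left
        (mt (ZMod.euler_criterion p n2).2 q)⟩
      have : IsEmpty {m // Sg.tc (W.map (Int.castRingHom (ZMod p))) 0 m = 0} :=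
        ⟨fun m => q ⟨m, (sub_eq_zero.1 ((t _).symm.trans m.2)).symm⟩⟩
      rw [Nat.card_of_isEmpty (α := {m // _})] at c
      rw [np]; omega
  refine ⟨H.imp And.left And.left, fun κ _ _ _ F hF R => ?_⟩
  have y := CharP.intCast_eq_zero_iff κ p
  obtain ⟨α, e⟩ := IsAlgClosed.exists_pow_nat_eq (W.a₂ : κ) two_pos
  have := nd_frob (by exact_mod_cast mt (y 2).1 fun c => h2 ((Nat.prime_dvd_prime_iff_eq hp.out
    Nat.prime_two).1 (Int.natCast_dvd_natCast.1 c))) (α := α)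
    (fun c => mt (y _).1 k2 (by rw [← e, c]; ring)) (V := W⁄κ) (by
      ext
      exacts [(congrArg _ h1).trans Int.cast_zero, e.symm, (congrArg _ h3).trans Int.cast_zero,
        (y _).2 k4, (y _).2 k6]) hF R
  have q : α ^ p = α * ZMod.castHom dvd_rfl κ ((W.a₂ : ZMod p) ^ (p / 2)) := by
    rw [map_pow, map_intCast, ← e, ← pow_mul, ← pow_succ', Nat.two_mul_div_two_add_one_of_odd
      (hp.out.odd_of_ne_two h2)]
  rcases H with ⟨a, b⟩ | ⟨a, b⟩ <;> rw [b] at q <;> rw [a]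
  · rw [this.1 (by simpa using q)]; simp
  · rw [this.2 (by simpa using q)]; simp

variable {A B : ℤ} {u r s t : ℚ}

/-- **multiplicative reduction**: a tower of points fixed by inertia -/
theorem m2 (hΔ : W.Δ ≠ 0) (h : Md (Wq W) A B u r s t) (o : Ov p P) (h2 : p ≠ 2)
    (hb : (p : ℤ) ∣ W.Δ) (hc : ¬ (p : ℤ) ∣ W.c₄) :
    ((p : ℤ) - np W p = 1 ∨ (p : ℤ) - np W p = -1) ∧ ∃ R : ℕ → Pt A B, R 0 = 0 ∧ R 1 ≠ 0 ∧
      (∀ n, 2 • R (n + 1) = R n) ∧ (∀ g, Inert P g → ∀ n, ga g (R n) = R n) ∧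
      ∀ φ, Fb p P φ → ∀ n, ga φ (R n) = (((p : ℤ) - np W p) * p) • R n := by
  have : Fact p.Prime := ⟨o.1⟩
  have z := ZMod.intCast_zmod_eq_zero_iff_dvd
  obtain ⟨x, y, S⟩ := Sg.ex_sing_p (W.map (Int.castRingHom (ZMod p)))
    ((W.map_Δ _).trans ((z _ p).2 hb))
  obtain ⟨x, rfl⟩ := ZMod.intCast_surjective x
  have e4 := S.b₄
  have e6 := S.b₆
  have ec := S.c₄
  simp only [map_b₂, map_b₄, map_b₆, map_c₄, eq_intCast] at e4 e6 ec
  have k2 : ¬ (p : ℤ) ∣ (Wc W (4 * x)).a₂ := fun k => hc ((z _ p).1 (by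
    have := (z _ p).2 k
    rw [Wc] at this; push_cast at this
    linear_combination ec + (W.b₂ + 12 * x : ZMod p) * this))
  have k4 : (p : ℤ) ∣ (Wc W (4 * x)).a₄ := (z _ p).1 (by
    rw [Wc]; push_cast; linear_combination 8 * e4)
  have k6 : (p : ℤ) ∣ (Wc W (4 * x)).a₆ := (z _ p).1 (by
    rw [Wc]; push_cast; linear_combination 16 * e6 + 32 * x * e4)
  obtain ⟨a, q⟩ := fq_nd h2 rfl rfl k2 k4 k6
  rw [Wc_np o.1 h2] at a q
  obtain ⟨u, r, s, t, h⟩ := Wc_md h (4 * x)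
  obtain ⟨O, hc, vi, vl, -, H⟩ := ex_tor (Wc W (4 * x)) o h2
  have ea : ∀ n : ℤ, algebraMap ℚ Qb (Int.castRingHom ℚ n) = n := fun n => map_intCast _ n
  have v1 : ∀ n : ℤ, ¬ (p : ℤ) ∣ n → O.valuation n = 1 := fun n k =>
    le_antisymm (vi n) (not_lt.1 (mt (vl n).1 k))
  obtain ⟨R, r0, r1, r2, r3⟩ := Tw.tower (by
    exact_mod_cast v1 2 fun c =>
      h2 ((Nat.prime_dvd_prime_iff_eq o.1 Nat.prime_two).1 (Int.natCast_dvd_natCast.1 c))) hc
    (by simpa [WeierstrassCurve.baseChange, Wc_Δ] using hΔ) ((ea _).trans Int.cast_zero)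
    ((ea _).trans Int.cast_zero) ((congrArg _ (ea _)).trans (v1 _ k2))
    ((congrArg _ (ea _)).trans_lt ((vl _).2 k4)) ((congrArg _ (ea _)).trans_lt ((vl _).2 k6))
  have tr : ∀ n, 2 ^ n • R n = 0 := fun n => by
    induction n with
    | zero => rw [r0, nsmul_zero]
    | succ n ih => rw [pow_succ, mul_smul, r2, ih]
  refine ⟨a, fun n => iso h Qb (R n), (congrArg _ r0).trans (map_zero _), (iso h Qb).map_ne_zero_iff.2 r1,
    fun n => by rw [← map_nsmul, r2], fun g k n => by rw [← iso_act, (H n _ (r3 n) (tr n)).1 g k],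
    fun φ k n => ?_⟩
  have := (H n _ (r3 n) (tr n)).2 φ k _ _ _ q
  rw [zero_zsmul, zero_add, one_zsmul, neg_zsmul, add_neg_eq_zero] at this
  exact (iso_act h φ _).symm.trans ((congrArg _ this).trans (map_zsmul _ _ _))

end Vale.Agent.P014T.Gt
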