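import Vale.Agent.P179W.PtMap

/-! # P014T, block GLT: Frobenius on a nodal cubic and on the ordinary curves over `𝔽₃` -/

set_option linter.all false

open scoped Classical
open WeierstrassCurve WeierstrassCurve.Affine P179W

noncomputable section

namespace Vale.Agent.P014T.Gt

variable {κ : Type} [Field κ] {V : WeierstrassCurve κ}

/-- `F` raises the coordinates to the power `q` -/
def IsF (q : ℕ) (F : V.toAffine.Point →+ V.toAffine.Point) : Prop :=
  ∀ x y h, ∃ h', F (.some x y h) = .some (x ^ q) (y ^ q) h'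

namespace Nd

variable {α : κ}

/-- the nodal cubic -/
abbrev nc (α : κ) : WeierstrassCurve κ := ⟨0, α ^ 2, 0, 0, 0⟩

/-- the multiplicative coordinate -/
def ps (α : κ) : (nc α).toAffine.Point → κ
  | .zero => 1
  | .some x y _ => (y + α * x) / (y - α * x)

theorem eqn {x y : κ} (h : (nc α).toAffine.Nonsingular x y) :
    (y + α * x) * (y - α * x) = x ^ 3 ∧ x ≠ 0 := by
  obtain ⟨e, n⟩ := (nonsing_iff _ _).1 h
  rw [equation_iff] at e
  refine ⟨by linear_combination e, ?_⟩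
  rintro rfl
  obtain rfl : y = 0 := pow_eq_zero_iff two_ne_zero |>.1 (by linear_combination e)
  simp [phi, psi] at n

theorem ne {x y : κ} (h : (nc α).toAffine.Nonsingular x y) : y + α * x ≠ 0 ∧ y - α * x ≠ 0 :=
  mul_ne_zero_iff.1 ((eqn h).1 ▸ pow_ne_zero 3 (eqn h).2)

theorem ps_add (P Q : (nc α).toAffine.Point) : ps α (P + Q) = ps α P * ps α Q := by
  rcases P with _ | ⟨x₁, y₁, h₁⟩
  · exact (congrArg _ (zero_add Q)).trans (one_mul _).symm
  rcases Q with _ | ⟨x₂, y₂, h₂⟩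
  · exact (mul_one _).symm
  obtain ⟨a₁, b₁⟩ := ne h₁
  obtain ⟨a₂, b₂⟩ := ne h₂
  by_cases n : x₁ = x₂ ∧ y₁ = (nc α).toAffine.negY x₂ y₂
  · rw [Point.add_of_Y_eq n.1 n.2]
    change (1 : κ) = _ / _ * (_ / _)
    rw [div_mul_div_comm, eq_div_iff (mul_ne_zero b₁ b₂), n.1, n.2, negY]
    ring
  obtain ⟨hl, hk⟩ := slope_rel h₁.1 h₂.1 n
  have b₃ := (ne (nonsingular_add h₁ h₂ n)).2
  have e := (eqn h₁).1
  rw [Point.add_some n]
  change _ / _ = _ / _ * (_ / _)
  rw [div_mul_div_comm, div_eq_div_iff b₃ (mul_ne_zero b₁ b₂)]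
  simp only [addY, negY, negAddY, addX] at hl hk ⊢
  generalize (nc α).toAffine.slope x₁ x₂ y₁ y₂ = l at hl hk
  obtain ⟨w, rfl⟩ : ∃ w, y₁ = l * x₁ + w := ⟨y₁ - l * x₁, by ring⟩
  obtain rfl : y₂ = l * x₂ + w := by linear_combination -hl
  have s2 : x₁ * x₂ + (l ^ 2 - α ^ 2 - x₁ - x₂) * (x₁ + x₂) = -2 * l * w := by
    linear_combination hk
  have s3 : x₁ * x₂ * (l ^ 2 - α ^ 2 - x₁ - x₂) = w ^ 2 := by linear_combination -e + x₁ * s2
  linear_combination ((l + α) ^ 3 - (l - α) ^ 3) * s3 + w * ((l + α) ^ 2 - (l - α) ^ 2) * s2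

theorem ps_ne (P : (nc α).toAffine.Point) : ps α P ≠ 0 := by
  rcases P with _ | ⟨x, y, h⟩
  · exact one_ne_zero
  · exact div_ne_zero (ne h).1 (ne h).2

theorem ps_smul (P : (nc α).toAffine.Point) (n : ℕ) : ps α (n • P) = ps α P ^ n := by
  induction n with
  | zero => rw [zero_smul, pow_zero]; rfl
  | succ n ih => rw [succ_nsmul, ps_add, ih, pow_succ]

theorem ps_one (h2 : (2 : κ) ≠ 0) (h0 : α ≠ 0) {P : (nc α).toAffine.Point} (e : ps α P = 1) :
    P = 0 := by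
  rcases P with _ | ⟨x, y, h⟩
  · rfl
  · exact absurd (show 2 * (α * x) = 0 by linear_combination (div_eq_one_iff_eq (ne h).2).1 e)
      (mul_ne_zero h2 (mul_ne_zero h0 (eqn h).2))

end Nd

open Nd in
/-- **Frobenius on a nodal cubic** -/
theorem nd_frob {p : ℕ} [Fact p.Prime] [CharP κ p] (h2 : (2 : κ) ≠ 0) {α : κ} (h0 : α ≠ 0)
    (hV : V = ⟨0, α ^ 2, 0, 0, 0⟩) {F : V.toAffine.Point →+ V.toAffine.Point} (hF : IsF p F)
    (P : V.toAffine.Point) : (α ^ p = α → F P = p • P) ∧ (α ^ p = -α → F P = -(p • P)) := by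
  subst hV
  rcases P with _ | ⟨x, y, h⟩
  · exact ⟨fun _ => (map_zero F).trans (nsmul_zero p).symm, fun _ => (map_zero F).trans
      (neg_eq_zero.2 (nsmul_zero p)).symm⟩
  obtain ⟨h', e⟩ := hF x y h
  have k : ps α (p • Point.some x y h) = (y ^ p + α ^ p * x ^ p) / (y ^ p - α ^ p * x ^ p) := by
    rw [ps_smul, ← mul_pow, ← add_pow_char, ← sub_pow_char, ← div_pow]; rfl
  obtain ⟨a, b⟩ := ne h'
  refine ⟨fun s => sub_eq_zero.1 (ps_one h2 h0 (mul_right_cancel₀ (ps_ne (p • Point.some x y h)) ?_)),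
    fun s => eq_neg_of_add_eq_zero_left (ps_one h2 h0 ?_)⟩
  · rw [← ps_add, sub_add_cancel, one_mul, e, k, s]; rfl
  · rw [ps_add, e, k, s, neg_mul, sub_neg_eq_add, ← sub_eq_add_neg]
    exact (div_mul_div_cancel₀ b).trans (div_self a)

end Vale.Agent.P014T.Gt
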