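import Vale.Agent.P014T.Gt.Th
import Vale.Agent.P014T.Lc.Qp
import Vale.Agent.P014T.Ht.Sh
import Vale.Agent.P022E.GW.Defs
import Vale.Agent.P027M.S.Defs
import Vale.Agent.P004M.TE.All

/-! # P014T, block GLT: reduction of an integral equation at an odd prime of `ℚ̄` -/

set_option linter.all false

open scoped Classical
open WeierstrassCurve WeierstrassCurve.Affine P179W NumberField

noncomputable section

namespace Vale.Agent.P014T.Gt

open Vale.Agent.P014T.Lc Vale.Agent.P014T.Vc Vale.Agent.P014T.Sm Vale.Agent.P004M.TE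
open Vale.Agent.P022E.GW (Ov)
open Vale.Agent.P014 (act)

variable {W : WeierstrassCurve ℤ} {p : ℕ} {P : Ideal (𝓞 Qb)}

theorem Rd.ns {K Γ R : Type} [Field K] [LinearOrderedCommGroupWithZero Γ] {v : Valuation K Γ}
    [Field R] {r : K → R} {E : WeierstrassCurve K} {Eb : WeierstrassCurve R}
    (hc : CoeffIn E {z | v z ≤ 1}) (h : Rd v r E Eb) {x y : K} {k : E.toAffine.Nonsingular x y}
    (hx : v x ≤ 1) : Ns v (.some x y k) ↔ Eb.toAffine.Nonsingular (r x) (r y) := by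
  obtain ⟨E₀, ρ, rfl, rfl, hr, hρ⟩ := h.model hc
  lift x to v.integer using hx
  lift y to v.integer using y_int hc k.1 x.2
  rw [ns_int hρ, hr, hr]

theorem IsF.zero {κ : Type} [Field κ] {V : WeierstrassCurve κ} : IsF (V := V) 1 (AddMonoidHom.id _) :=
  fun x y h => by simp [h]

/-- **the reduction** -/
theorem ex_rd (W : WeierstrassCurve ℤ) (o : Ov p P) (h2 : p ≠ 2) : ∃ (κ : Type) (_ : Field κ)
    (_ : IsAlgClosed κ) (_ : CharP κ p) (O : ValuationSubring Qb)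
    (hc : CoeffIn ((Wq W)⁄Qb) {z | O.valuation z ≤ 1}) (rd : E0 hc →+ (W⁄κ).toAffine.Point),
    (∀ n : ℤ, O.valuation n ≤ 1) ∧ (∀ n : ℤ, O.valuation n < 1 ↔ (p : ℤ) ∣ n) ∧
    (¬ (p : ℤ) ∣ W.Δ → E0 hc = ⊤) ∧ (∀ n Q, 2 ^ n • Q = 0 → rd Q = 0 → Q = 0) ∧
    ∀ (g : GQ) (e : ℕ), e ≠ 0 → (∀ x : 𝓞 Qb, g • x - x ^ e ∈ P) → ∀ F, IsF e F → ∀ Q : E0 hc,
      ∃ m, rd ⟨act _ g Q, m⟩ = F (rd Q) := by
  obtain ⟨O, hO, hg⟩ := exists_val o.2.1 o.1.ne_zero o.2.2
  let κ := AlgebraicClosure (IsLocalRing.ResidueField O)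
  let ρ : O →+* κ := (algebraMap _ κ).comp (IsLocalRing.residue O)
  let r : Qb → κ := fun z => if h : z ∈ O then ρ ⟨z, h⟩ else 0
  have hr : ∀ z (h : O.valuation z ≤ 1), r z = ρ ⟨z, (O.valuation_le_one_iff z).1 h⟩ :=
    fun z h => dif_pos ((O.valuation_le_one_iff z).1 h)
  have r0 : ∀ z, O.valuation z ≤ 1 → (r z = 0 ↔ O.valuation z < 1) := by
    intro z hz
    rw [hr z hz, RingHom.comp_apply, map_eq_zero, IsLocalRing.residue_eq_zero_iff,
      ValuationSubring.valuation_lt_one_iff]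
  have vi : ∀ n : ℤ, O.valuation (n : Qb) ≤ 1 := fun n =>
    (O.valuation_le_one_iff _).2 (intCast_mem O n)
  have ri : ∀ n : ℤ, r n = n := fun n => (hr _ (vi n)).trans (map_intCast ρ n)
  have hp : CharP κ p := (CharP.charP_iff_prime_eq_zero o.1).2 (by
    have := (r0 _ hO.le).2 hO
    rwa [← Int.cast_natCast, ri, Int.cast_natCast] at this)
  have vl : ∀ n : ℤ, O.valuation n < 1 ↔ (p : ℤ) ∣ n := fun n => by
    rw [← r0 _ (vi n), ri, CharP.intCast_eq_zero_iff κ p]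
  have ea : ∀ n : ℤ, algebraMap ℚ Qb (Int.castRingHom ℚ n) = n := fun n => map_intCast _ n
  have va : ∀ n : ℤ, O.valuation (algebraMap ℚ Qb (Int.castRingHom ℚ n)) ≤ 1 := fun n =>
    (ea n).symm ▸ vi n
  have ra : ∀ n : ℤ, algebraMap ℤ κ n = r (algebraMap ℚ Qb (Int.castRingHom ℚ n)) := fun n =>
    (ea n).symm ▸ (ri n).symm
  have hc : CoeffIn ((Wq W)⁄Qb) {z | O.valuation z ≤ 1} := ⟨va _, va _, va _, va _, va _⟩
  have R : Rd O.valuation r ((Wq W)⁄Qb) (W⁄κ) := ⟨by simpa using ri 1,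
    fun a b ha hb => by rw [hr a ha, hr b hb, hr _ (O.valuation.map_add_le ha hb), ← map_add]; rfl,
    fun a b ha hb => by rw [hr a ha, hr b hb, hr _ (val_mul_le_one ha hb), ← map_mul]; rfl,
    r0, ra _, ra _, ra _, ra _, ra _⟩
  obtain ⟨f, f0, f1⟩ := ex_red hc R
  refine ⟨κ, inferInstance, inferInstance, hp, O, hc, f, vi, vl, fun k => e0_top hc R ?_,
    fun n Q => inj_tors (fun Q a b => ?_) n, fun g e he h4 F hF Q => ?_⟩
  · exact (W.map_Δ _).trans_ne (mt (CharP.intCast_eq_zero_iff κ p _).1 k)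
  · obtain ⟨_ | ⟨x, y, k⟩, m⟩ := Q
    · rfl
    have hx : 1 < O.valuation x := not_le.1 ((f0 _).1 b)
    have a' : Point.some x y k + .some x y k = 0 := (two_nsmul _).symm.trans (congrArg Subtype.val a)
    have e : y = ((Wq W)⁄Qb).toAffine.negY x y := by_contra fun c =>
      Point.some_ne_zero _ ((Point.add_self_of_Y_ne c).symm.trans a')
    have q := (equation_iff _ _).1 k.1
    rw [negY] at e
    obtain ⟨c1, c2, c3, c4, c6⟩ := hc
    generalize (Wq W)⁄Qb = E at *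
    have v2 : O.valuation 2 = 1 := le_antisymm (by simpa using vi 2) (not_lt.1 fun c => h2
      ((Nat.prime_dvd_prime_iff_eq o.1 Nat.prime_two).1 (Int.natCast_dvd_natCast.1
        ((vl 2).1 (by simpa using c)))))
    have l : ∀ {a : Qb} {i : ℕ}, O.valuation a ≤ 1 → i < 3 →
        O.valuation (a * x ^ i) < O.valuation x ^ 3 := fun a b => by
      rw [map_mul, map_pow]
      exact (mul_le_of_le_one_left' a).trans_lt (pow_lt_pow_right₀ hx b)
    have m2 : ∀ {a : Qb}, O.valuation a ≤ 1 → O.valuation (2 * a) ≤ 1 := fun a => by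
      rwa [map_mul, v2, one_mul]
    have := O.valuation.map_add_lt (O.valuation.map_add_lt
      (l (O.valuation.map_add_le (val_mul_le_one c1 c1) (m2 (m2 c2))) (i := 2) (by omega))
      (l (m2 (O.valuation.map_add_le (m2 c4) (val_mul_le_one c1 c3))) (i := 1) (by omega)))
      (l (O.valuation.map_add_le (val_mul_le_one c3 c3) (m2 (m2 c6))) (i := 0) (by omega))
    rw [show _ + _ + _ = -(2 * (2 * x ^ 3)) by
      linear_combination -4 * q + (2 * y + E.a₁ * x + E.a₃) * e, Valuation.map_neg, map_mul, map_mul,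
      v2, one_mul, one_mul, map_pow] at this
    exact absurd this (lt_irrefl _)
  · have rg : ∀ z, O.valuation z ≤ 1 → r (g z) = r z ^ e := fun z hz => by
      obtain ⟨h5, h6⟩ := hg g e he h4 z
      have h7 := (r0 _ (h6 hz).le).2 (h6 hz)
      rw [hr _ (h6 hz).le] at h7
      rw [hr _ (h5.2 hz), hr _ hz, ← map_pow, ← sub_eq_zero, ← map_sub]
      exact h7
    obtain ⟨_ | ⟨x, y, k⟩, m⟩ := Q
    · exact ⟨m, (map_zero f).trans ((map_zero F).symm.trans (congrArg F (map_zero f).symm))⟩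
    by_cases hx : O.valuation x ≤ 1
    · have n := (Rd.ns hc R (k := k) hx).1 m
      obtain ⟨_, e1⟩ := f1 x y k hx n
      obtain ⟨n', e2⟩ := hF _ _ n
      simp only [← rg x hx, ← rg y (y_int hc k.1 hx)] at n' e2
      exact (f1 _ _ _ ((hg g e he h4 x).1.2 hx) n').imp fun _ e3 =>
        e3.trans (e2.symm.trans (congrArg F e1.symm))
    · have k' : KerV O.valuation (act _ g (.some x y k)) := fun c => hx ((hg g e he h4 x).1.1 c)
      exact ⟨ns_ker k', ((f0 _).2 k').trans ((map_zero F).symm.trans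
        (congrArg F ((f0 ⟨_, m⟩).2 hx).symm))⟩

/-- the equation `y² = f (x + c)`, `f = x³ + b₂ x² + 8 b₄ x + 16 b₆` -/
def Wc (W : WeierstrassCurve ℤ) (c : ℤ) : WeierstrassCurve ℤ :=
  ⟨0, W.b₂ + 3 * c, 0, 8 * W.b₄ + 2 * c * W.b₂ + 3 * c ^ 2,
    16 * W.b₆ + 8 * W.b₄ * c + W.b₂ * c ^ 2 + c ^ 3⟩

theorem Wc_Δ (c : ℤ) : (Wc W c).Δ = 2 ^ 12 * W.Δ := by
  simp only [Wc, Δ, b₂, b₄, b₆, b₈]; ring

theorem Wc_np (hp : p.Prime) (h2 : p ≠ 2) (c : ℤ) : np (Wc W c) p = np W p := by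
  have : Fact p.Prime := ⟨hp⟩
  have k : Ch (W.map (Int.castRingHom (ZMod p))) ((Wc W c).map (Int.castRingHom (ZMod p))) 2 (-c)
      W.a₁ (4 * W.a₃) := by
    refine ⟨by exact_mod_cast Sg.cast_ne Nat.prime_two h2, ?_, ?_, ?_, ?_, ?_⟩ <;>
      simp only [Wc, b₂, b₄, b₆, map_a₁, map_a₂, map_a₃, map_a₄, map_a₆, eq_intCast] <;>
      push_cast <;> ring
  exact (Nat.card_congr (Equiv.ofBijective (vm (RingHom.id _) k)
    ⟨vm_inj _, vm_surj _ Function.surjective_id⟩)).symm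

theorem Wc_md {a b u r s t : ℚ} (h : Md (Wq W) a b u r s t) (c : ℤ) :
    ∃ u r s t, Md (Wq (Wc W c)) a b u r s t := by
  obtain ⟨-, -, -, rfl, rfl⟩ := Md.eq h
  have := md (Wq (Wc W c)) (u := u / 2) (div_ne_zero h.ne two_ne_zero)
  rw [show (u / 2) ^ 4 * (Wq (Wc W c)).c₄ = u ^ 4 * (Wq W).c₄ from ?_,
    show (u / 2) ^ 6 * (Wq (Wc W c)).c₆ = u ^ 6 * (Wq W).c₆ from ?_] at this
  · exact ⟨_, _, _, _, this⟩
  all_goals
    simp only [Wc, c₄, c₆, b₂, b₄, b₆, map_a₁, map_a₂, map_a₃, map_a₄, map_a₆, eq_intCast]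
    push_cast
    ring

end Vale.Agent.P014T.Gt
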