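import Vale.Agent.P014T.Gt.Nd

/-! # P014T, block GLT: Frobenius on the ordinary curves over `𝔽₃` -/

set_option linter.all false

open scoped Classical
open WeierstrassCurve WeierstrassCurve.Affine P179W Polynomial

noncomputable section

namespace Vale.Agent.P014T.Gt.Th

variable {κ : Type} [Field κ] {a d : κ}

/-- the curve -/
abbrev oc (a d : κ) : WeierstrassCurve κ := ⟨0, a, 0, 0, d⟩

theorem eqn {x y : κ} (h : (oc a d).toAffine.Nonsingular x y) : y ^ 2 = x ^ 3 + a * x ^ 2 + d := by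
  linear_combination (equation_iff _ _).1 h.1

theorem ad {x₁ y₁ x₂ y₂ l X Y : κ} (h₁ : (oc a d).toAffine.Nonsingular x₁ y₁)
    (h₂ : (oc a d).toAffine.Nonsingular x₂ y₂) (n : x₁ ≠ x₂) (hl : y₁ - y₂ = l * (x₁ - x₂))
    (hX : l ^ 2 - a - x₁ - x₂ = X) (hY : -(l * (X - x₁) + y₁) = Y) :
    ∃ h, Point.some _ _ h₁ + .some _ _ h₂ = .some X Y h := by
  have e : (oc a d).toAffine.slope x₁ x₂ y₁ y₂ = l := by
    rw [slope_of_X_ne n, div_eq_iff (sub_ne_zero.2 n), hl]
  have k := nonsingular_add h₁ h₂ fun c => n c.1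
  have := Point.add_of_X_ne (h₁ := h₁) (h₂ := h₂) n
  have eX : (oc a d).toAffine.addX x₁ x₂ l = X := by rw [addX, ← hX]; ring
  have eY : (oc a d).toAffine.addY x₁ x₂ y₁ l = Y := by rw [addY, negY, negAddY, eX, ← hY]; ring
  simp only [e, eX, eY] at k this
  exact ⟨k, this⟩

theorem ng {x y : κ} (h : (oc a d).toAffine.Nonsingular x y) :
    ∃ h', -Point.some x y h = .some x (-y) h' := by
  have e : (oc a d).toAffine.negY x y = -y := by rw [negY]; ring
  have := Point.neg_some h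
  have k := (nonsingular_neg _ _).2 h
  simp only [e] at k this
  exact ⟨k, this⟩

theorem sm {η : ℤ} (hη : η = 1 ∨ η = -1) {x y : κ} (h : (oc a d).toAffine.Nonsingular x y) :
    ∃ h', η • Point.some x y h = .some x (η * y) h' := by
  rcases hη with rfl | rfl
  · simp [h]
  · simpa using ng h

/-- the abscissa -/
def xc : (oc a d).toAffine.Point → κ
  | .zero => 0
  | .some x _ _ => x

theorem ext0 [IsAlgClosed κ] (hΔ : (oc a d).Δ ≠ 0) {H : Type} [AddGroup H]
    (T : (oc a d).toAffine.Point →+ H) {g : κ[X]} (hg : g ≠ 0)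
    (h : ∀ x y k, g.eval x ≠ 0 → T (.some x y k) = 0) (P) : T P = 0 := by
  have : Infinite (oc a d).toAffine.Point := .of_surjective xc fun x => by
    obtain ⟨y, e⟩ := IsAlgClosed.exists_pow_nat_eq (x ^ 3 + a * x ^ 2 + d) two_pos
    exact ⟨.some x y (nonsing_of_Δ hΔ ((equation_iff _ _).2 (by linear_combination e))), rfl⟩
  have f : (xc (a := a) (d := d) ⁻¹' insert 0 {x | g.IsRoot x}).Finite :=
    ((finite_setOf_isRoot hg).insert 0).preimage' fun x _ => by
      by_cases c : ∃ y, (oc a d).toAffine.Nonsingular x y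
      · obtain ⟨y, k⟩ := c
        refine (Set.toFinite {0, Point.some x y k, -Point.some x y k}).subset ?_
        rintro (_ | ⟨x', y', k'⟩) e
        exacts [.inl rfl, .inr (Point.X_eq_iff.1 e)]
      · refine (Set.finite_singleton 0).subset ?_
        rintro (_ | ⟨x', y', k'⟩) e
        exacts [rfl, (c ⟨y', (e : x' = x) ▸ k'⟩).elim]
  have k : ∀ Q ∉ xc ⁻¹' insert 0 {x | g.IsRoot x}, T Q = 0 := by
    rintro (_ | ⟨x, y, k⟩) e
    exacts [map_zero T, h x y k fun c => e (.inr c)]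
  obtain ⟨Q, m⟩ := (f.union (f.preimage (add_right_injective P).injOn)).exists_notMem
  have := k _ fun c => m (.inr c)
  rwa [map_add, k _ fun c => m (.inl c), add_zero] at this

variable [CharP κ 3]

theorem db {x y w : κ} (h : (oc a d).toAffine.Nonsingular x y) (hw : w * y = 1) :
    ∃ h', Point.some x y h + .some x y h =
      .some ((a * x * w) ^ 2 - a + x) (-(a * x * w * ((a * x * w) ^ 2 - a) + y)) h' := by
  have n : y ≠ (oc a d).toAffine.negY x y := fun c => by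
    rw [negY] at c
    grind
  have e : (oc a d).toAffine.slope x x y y = a * x * w := by
    rw [slope_of_Y_ne rfl n, div_eq_iff (sub_ne_zero.2 n), negY]
    grind
  have k := nonsingular_add h h fun c => n c.2
  have := Point.add_self_of_Y_ne (h₁ := h) n
  have eX : (oc a d).toAffine.addX x x (a * x * w) = (a * x * w) ^ 2 - a + x := by
    rw [addX]; grind
  have eY : (oc a d).toAffine.addY x x y (a * x * w) =
      -(a * x * w * ((a * x * w) ^ 2 - a) + y) := by rw [addY, negY, negAddY, eX]; ring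
  simp only [e, eX, eY] at k this
  exact ⟨k, this⟩

theorem id1 {x y s w ε : κ} (hs : s * (x - ε) = 1) (hw : w * y = 1) (q : ε ^ 2 = 1)
    (e : y ^ 2 = x ^ 3 + ε * x ^ 2 + -ε) : -((-(ε * x * w) - ε * (y * s) ^ 3) *
      ((x - ε + s + ε * s ^ 2) ^ 3 - x) + y) = (y * (ε - ε * s ^ 2 + s ^ 3)) ^ 3 := by
  grind

theorem id2 {x y s w ε : κ} (hs : s * (x - ε) = 1) (hw : w * y = 1) (q : ε ^ 2 = 1)
    (e : y ^ 2 = x ^ 3 + ε * x ^ 2 + ε) :
    x + ε - s + ε - (w * (x - ε)) ^ 2 = (ε * x * w) ^ 2 - ε + x ∧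
    ε * (ε * y * (1 + s ^ 2)) * (1 + ((w * (x - ε)) ^ 2) ^ 2) =
      ε * x * w * ((ε * x * w) ^ 2 - ε) + y := by
  constructor <;> grind

variable {η : ℤ} (hη : η = 1 ∨ η = -1)
include hη

omit [CharP κ 3] in
theorem sq : (η : κ) ^ 2 = 1 := by rcases hη with rfl | rfl <;> simp

theorem ps {F : (oc (η : κ) η).toAffine.Point →+ _} (hF : IsF 3 F) {x y s : κ}
    (h : (oc (η : κ) η).toAffine.Nonsingular x y) (n : x ^ 3 ≠ x) (hs : s * (x - η) = 1) :
    ∃ h', η • Point.some x y h + F (.some x y h) = .some (x + η - s) (η * y * (1 + s ^ 2)) h' := by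
  obtain ⟨h1, e1⟩ := sm hη h
  obtain ⟨h2, e2⟩ := hF x y h
  have e := eqn h
  have q := sq (κ := κ) hη
  rw [e1, e2]
  generalize (η : κ) = ε at *
  exact ad h1 h2 n.symm (l := x * y * s) (by grind) (by grind) (by grind)

omit [CharP κ 3] in
theorem ex_s {x : κ} (n : x ^ 3 ≠ x) : ∃ s, s * (x - η) = 1 :=
  ⟨_, inv_mul_cancel₀ (sub_ne_zero.2 fun c => n (by rw [c, pow_succ, sq hη, one_mul]))⟩

variable [IsAlgClosed κ]

theorem two (hΔ : (oc (η : κ) η).Δ ≠ 0) {F : (oc (η : κ) η).toAffine.Point →+ _} (hF : IsF 3 F) (P) :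
    F (F P) + (2 * η) • F P + (3 : ℤ) • P = 0 := by
  let ψ := η • AddMonoidHom.id _ + F
  have := ext0 hΔ (ψ.comp ψ + (AddMonoidHom.id _ + AddMonoidHom.id _))
    (g := (X ^ 3 - X) * (X ^ 3 + C (η : κ) * X ^ 2 + C (η : κ)) *
      ((X ^ 2 + 1) ^ 3 - (X ^ 2 + 1) * (X - C (η : κ)) ^ 2))
    (Monic.ne_zero (by monicity!)) (fun x y h n => ?_) P
  · have q : η * η = 1 := by rcases hη with rfl | rfl <;> rfl
    simp only [ψ, AddMonoidHom.add_apply, AddMonoidHom.comp_apply, AddMonoidHom.smul_apply,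
      AddMonoidHom.id_apply, map_add, map_zsmul, smul_add, smul_smul, q] at this
    rw [← this]
    module
  simp only [eval_mul, eval_sub, eval_add, eval_pow, eval_X, eval_C, eval_one, mul_ne_zero_iff,
    ← eqn h] at n
  obtain ⟨⟨n1, n2⟩, n3⟩ := n
  obtain ⟨s, hs⟩ := ex_s hη (sub_ne_zero.1 n1)
  obtain ⟨w, hw⟩ : ∃ w, w * y = 1 := ⟨_, inv_mul_cancel₀ fun c => n2 (by rw [c]; ring)⟩
  have e := eqn h
  have q := sq (κ := κ) hη
  obtain ⟨h1, e1⟩ := ps hη hF h (sub_ne_zero.1 n1) hs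
  obtain ⟨h2, e2⟩ := ps hη hF h1 (s := (w * (x - η)) ^ 2) (fun c => n3 (by grind)) (by grind)
  obtain ⟨h3, e3⟩ := db h hw
  change η • (η • Point.some x y h + F (.some x y h)) + F (η • Point.some x y h + F (.some x y h)) +
    (Point.some x y h + .some x y h) = 0
  rw [e1, e2, e3]
  exact Point.add_of_Y_eq (id2 hs hw q e).1 (by rw [negY, (id2 hs hw q e).2]; ring)

theorem one (hΔ : (oc (η : κ) (-η)).Δ ≠ 0) {F : (oc (η : κ) (-η)).toAffine.Point →+ _}
    (hF : IsF 3 F) (P) : F (F P) + (-η) • F P + (3 : ℤ) • P = 0 := by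
  have := ext0 hΔ (AddMonoidHom.id _ + (AddMonoidHom.id _ + AddMonoidHom.id _) -
    F.comp (η • AddMonoidHom.id _ + -F))
    (g := (X ^ 3 - X) * (X ^ 3 + C (η : κ) * X ^ 2 + C (-η : κ)))
    (Monic.ne_zero (by monicity!)) (fun x y h n => ?_) P
  · simp only [AddMonoidHom.add_apply, AddMonoidHom.sub_apply, AddMonoidHom.neg_apply, map_neg,
      AddMonoidHom.comp_apply, AddMonoidHom.smul_apply, AddMonoidHom.id_apply, map_add,
      map_zsmul] at this
    rw [← this]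
    module
  simp only [eval_mul, eval_sub, eval_add, eval_pow, eval_X, eval_C, mul_ne_zero_iff,
    ← eqn h] at n
  obtain ⟨n1, n2⟩ := n
  obtain ⟨s, hs⟩ := ex_s hη (sub_ne_zero.1 n1)
  obtain ⟨w, hw⟩ : ∃ w, w * y = 1 := ⟨_, inv_mul_cancel₀ fun c => n2 (by rw [c]; ring)⟩
  have e := eqn h
  have q := sq (κ := κ) hη
  obtain ⟨h1, e1⟩ := sm hη h
  obtain ⟨h2, e2⟩ := hF x y h
  obtain ⟨h3, e3⟩ := ng h2
  obtain ⟨h4, e4⟩ := ad h1 h3 (sub_ne_zero.1 n1).symm (l := -(x * y * s))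
    (X := x - η + s + η * s ^ 2) (Y := y * (η - η * s ^ 2 + s ^ 3)) (by grind) (by grind) (by grind)
  obtain ⟨h5, e5⟩ := hF _ _ h4
  obtain ⟨h6, e6⟩ := db h hw
  obtain ⟨h7, e7⟩ := ad h h6 (fun c => by grind) (l := -(η * x * w) - η * (y * s) ^ 3)
    (X := (x - η + s + η * s ^ 2) ^ 3) (Y := (y * (η - η * s ^ 2 + s ^ 3)) ^ 3)
    (by grind) (by grind) (id1 hs hw q e)
  change Point.some x y h + (Point.some x y h + .some x y h) -
    F (η • Point.some x y h + -F (.some x y h)) = 0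
  rw [e6, e7, e1, e2, e3, e4, e5, sub_self]

end Vale.Agent.P014T.Gt.Th
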